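import Vale.Agent.P297.H839.FamDefs

/-!
The property that is proved: all closed points of all proper models are rationally equivalent.
-/

open CategoryTheory AlgebraicGeometry

namespace Vale.Agent.P297.H839

open Vale.Agent.P297

/-- For every integral proper `ℂ`-scheme `S` with function field `K`, any two closed points of `S`
are rationally equivalent (integral coefficients). -/
def PointsEquivalent (K : Type) [Field K] [Algebra ℂ K] : Prop :=
  ∀ (S : Scheme.{0}) [IsIntegral S] (f : S ⟶ Spec (.of ℂ)) [IsProper f],
    IsFunctionFieldOf f K → ∀ x y : ClosedPt S, RatEquiv f x y

end Vale.Agent.P297.H839
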