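import Vale.Agent.P297.DihedralDefs

/-!
Definitions for the general criteria: purely transcendental subfields, relations given by orbits of
finite groups, double covers of rational varieties.
-/

namespace Vale.Agent.P297.H839

/-- The intermediate field `F` is purely transcendental over `ℂ`. -/
def IsRational {N : Type} [Field N] [Algebra ℂ N] (F : IntermediateField ℂ N) : Prop :=
  ∃ (d : ℕ) (x : Fin d → N), AlgebraicIndependent ℂ x ∧
    F = IntermediateField.adjoin ℂ (Set.range x)

/-- `K` is generated by a square root over a purely transcendental subfield. -/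
def IsDouble (K : Type) [Field K] [Algebra ℂ K] : Prop :=
  ∃ (F : IntermediateField ℂ K) (θ : K), IsRational F ∧ θ ^ 2 ∈ F ∧
    IntermediateField.adjoin ℂ ((F : Set K) ∪ {θ}) = ⊤

/-- The group of relations between `ℂ`-embeddings `K → N` that is generated by the orbits
`∑ r ∈ P, r ∘ φ`, where `φ : K → N` is an embedding and `P` is a finite group of automorphisms of
`N` whose fixed field is purely transcendental. -/
noncomputable def orbitRelations (K N : Type) [Field K] [Algebra ℂ K] [Field N] [Algebra ℂ N] :
    AddSubgroup ((K →ₐ[ℂ] N) →₀ ℤ) :=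
  AddSubgroup.closure {v | ∃ (P : Subgroup (N ≃ₐ[ℂ] N)) (_ : Fintype P) (φ : K →ₐ[ℂ] N),
    IsRational (IntermediateField.fixedField P) ∧
      v = ∑ r : P, Finsupp.single (r.1.toAlgHom.comp φ) (1 : ℤ)}

end Vale.Agent.P297.H839
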