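import Vale.Agent.P297.Bdl.B1
import Vale.Agent.P297.H839.Defs

/-!
The criterion: relations between embeddings of the function field and zero-cycles.
-/

set_option linter.unusedSectionVars false
set_option linter.style.haveILetI false

open CategoryTheory AlgebraicGeometry IntermediateField Polynomial

namespace Vale.Agent.P297.H839

open Vale.Agent.P297

section

variable {S : Scheme.{0}} {f : S ⟶ Spec (.of ℂ)} [IsProper f] {C : Type} [CommRing C] [Algebra ℂ C]
  [Algebra.FiniteType ℂ C] {j : Spec (.of C) ⟶ S}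
  {hj : j ≫ f = Spec.map (CommRingCat.ofHom (algebraMap ℂ C))}

/-- an orbit is good -/
theorem good_orbit_sum {N : Type} [Field N] [Algebra ℂ N] (P : Subgroup (N ≃ₐ[ℂ] N)) [Fintype P]
    (hP : IsRational (IntermediateField.fixedField P)) (ι : C →ₐ[ℂ] N) :
    ∑ r : P, Finsupp.single (r.1.toAlgHom.comp ι) (1 : ℤ) ∈ Good f j hj (Rat f) N := by
  obtain ⟨d, x, hx, hF⟩ := hP
  refine good_orbit P x hx ?_ ?_ ι
  · intro r hr i
    have h1 : x i ∈ IntermediateField.fixedField P := by
      rw [hF]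
      exact IntermediateField.subset_adjoin _ _ ⟨i, rfl⟩
    exact h1 ⟨r, hr⟩
  · intro y hy
    rw [← hF]
    exact fun r => hy r.1 r.2

/-- relations between embeddings specialise -/
theorem good_of_relation {K N : Type} [Field K] [Algebra ℂ K] [Field N] [Algebra ℂ N]
    (i : C →ₐ[ℂ] K) {v : (K →ₐ[ℂ] N) →₀ ℤ} (hv : v ∈ orbitRelations K N) :
    Finsupp.mapDomain (fun φ : K →ₐ[ℂ] N => φ.comp i) v ∈ Good f j hj (Rat f) N := by
  unfold orbitRelations at hv
  induction hv using AddSubgroup.closure_induction with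
  | mem v hv =>
    obtain ⟨P, hP, φ, hr, rfl⟩ := hv
    have h1 : Finsupp.mapDomain (fun φ : K →ₐ[ℂ] N => φ.comp i)
        (∑ r : P, Finsupp.single (r.1.toAlgHom.comp φ) (1 : ℤ)) =
        ∑ r : P, Finsupp.single (r.1.toAlgHom.comp (φ.comp i)) (1 : ℤ) := by
      have h2 : Finsupp.mapDomain (fun φ : K →ₐ[ℂ] N => φ.comp i) =
        Finsupp.mapDomain.addMonoidHom (fun φ : K →ₐ[ℂ] N => φ.comp i) (M := ℤ) := rfl
      rw [h2, map_sum, ← h2]
      refine Finset.sum_congr rfl fun r _ => ?_
      rw [Finsupp.mapDomain_single]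
      rfl
    rw [h1]
    exact good_orbit_sum P hr (φ.comp i)
  | zero =>
    rw [Finsupp.mapDomain_zero]
    exact AddSubgroup.zero_mem _
  | add v w _ _ h1 h2 =>
    rw [Finsupp.mapDomain_add]
    exact AddSubgroup.add_mem _ h1 h2
  | neg v _ h1 =>
    have h2 : Finsupp.mapDomain (fun φ : K →ₐ[ℂ] N => φ.comp i) =
        Finsupp.mapDomain.addMonoidHom (fun φ : K →ₐ[ℂ] N => φ.comp i) (M := ℤ) := rfl
    rw [h2, map_neg, ← h2]
    exact AddSubgroup.neg_mem _ h1

end

/-- **Criterion.** A relation `n [K → N] = combination of orbits` gives `n ([x] - [y]) = 0`. -/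
theorem criterion {K N : Type} [Field K] [Algebra ℂ K] [Field N] [Algebra ℂ N] [Algebra K N]
    [IsScalarTower ℂ K N] [Algebra.IsAlgebraic K N] (n : ℤ)
    (hn : Finsupp.single (IsScalarTower.toAlgHom ℂ K N) n ∈ orbitRelations K N)
    {S : Scheme.{0}} [IsIntegral S] (f : S ⟶ Spec (.of ℂ)) [IsProper f]
    (hS : IsFunctionFieldOf f K) (x y : ClosedPt S) :
    n • (Finsupp.single x (1 : ℤ) - Finsupp.single y 1) ∈ Rat f := by
  obtain ⟨U, hU, hne, hi⟩ := exists_chart f hS
  letI := chartAlg f hU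
  haveI := chart_finiteType f hU
  obtain ⟨i, hi, hfrac⟩ := hi
  have hm : Function.Injective (IsScalarTower.toAlgHom ℂ K N) := (algebraMap K N).injective
  refine global_of_good f hU n (Rat f) le_rfl ((IsScalarTower.toAlgHom ℂ K N).comp i)
    (hm.comp hi) ?_ ?_ x y
  · intro y
    refine exists_poly_of_algebraic i.toRingHom hi hfrac
      (IsScalarTower.toAlgHom ℂ K N).toRingHom y ?_
    obtain ⟨p, hp0, hp⟩ := Algebra.IsAlgebraic.isAlgebraic (R := K) y
    exact ⟨p, hp0, hp⟩
  · have h1 := good_of_relation (f := f) (j := hU.fromSpec) (hj := chart_hj f hU) i hn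
    rw [Finsupp.mapDomain_single] at h1
    exact h1

/-- Divisibility by two of the zero-cycles of degree zero on a double cover of a rational
variety. -/
theorem half_double {S : Scheme.{0}} [IsIntegral S] (f : S ⟶ Spec (.of ℂ)) [IsProper f]
    {K : Type} [Field K] [Algebra ℂ K] (hS : IsFunctionFieldOf f K) (hK : IsDouble K)
    (R : AddSubgroup (ZeroCycle S)) (hR : Rat f ≤ R)
    (hR2 : ∀ u v : ClosedPt S,
      (2 : ℤ) • (Finsupp.single u (1 : ℤ) - Finsupp.single v 1) ∈ R) (u v : ClosedPt S) :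
    Finsupp.single u (1 : ℤ) - Finsupp.single v 1 ∈ R := by
  obtain ⟨F, θ, ⟨d, x, hx, rfl⟩, hθ, htop⟩ := hK
  refine half_global f hS x hx θ hθ _ ?_ htop R hR hR2 u v
  rintro a (ha | ha)
  · exact Or.inl ha
  · exact Or.inr ha

/-- A power of two kills the zero-cycles of degree zero only if they vanish. -/
theorem one_of_pow_two {S : Scheme.{0}} [IsIntegral S] (f : S ⟶ Spec (.of ℂ)) [IsProper f]
    {K : Type} [Field K] [Algebra ℂ K] (hS : IsFunctionFieldOf f K) (hK : IsDouble K) (k : ℕ)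
    (h : ∀ u v : ClosedPt S, ((2 : ℤ) ^ k) • (Finsupp.single u (1 : ℤ) - Finsupp.single v 1) ∈
      Rat f) (u v : ClosedPt S) : RatEquiv f u v := by
  induction k with
  | zero =>
    have h1 := h u v
    rwa [pow_zero, one_smul] at h1
  | succ k ih =>
    apply ih
    intro u v
    -- the group `Rat + 2 ^ k * 2 * (differences)`
    set D : Set (ZeroCycle S) :=
      {z | ∃ a b : ClosedPt S, z = (2 : ℤ) • (Finsupp.single a (1 : ℤ) - Finsupp.single b 1)} with hD
    have hmemD : ∀ a b : ClosedPt S,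
        (2 : ℤ) • (Finsupp.single a (1 : ℤ) - Finsupp.single b 1) ∈ D := fun a b => ⟨a, b, rfl⟩
    have key : ∀ u v : ClosedPt S, Finsupp.single u (1 : ℤ) - Finsupp.single v 1 ∈
        Rat f ⊔ AddSubgroup.closure D :=
      fun u v => half_double f hS hK _ le_sup_left
        (fun a b => AddSubgroup.mem_sup_right (AddSubgroup.subset_closure (hmemD a b))) u v
    obtain ⟨y, hy, z, hz, hyz⟩ := AddSubgroup.mem_sup.mp (key u v)
    rw [← hyz, smul_add]
    refine AddSubgroup.add_mem _ (AddSubgroup.zsmul_mem _ hy _) ?_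
    clear hyz
    induction hz using AddSubgroup.closure_induction with
    | mem z hz =>
      obtain ⟨a, b, rfl⟩ := hz
      rw [smul_smul, ← pow_succ]
      exact h a b
    | zero => rw [smul_zero]; exact AddSubgroup.zero_mem _
    | add z w _ _ h1 h2 => rw [smul_add]; exact AddSubgroup.add_mem _ h1 h2
    | neg z _ h1 => rw [smul_neg]; exact AddSubgroup.neg_mem _ h1

/-- **Criterion, integral form.** -/
theorem criterion_one {K N : Type} [Field K] [Algebra ℂ K] [Field N] [Algebra ℂ N] [Algebra K N]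
    [IsScalarTower ℂ K N] [Algebra.IsAlgebraic K N] (hK : IsDouble K) (k : ℕ)
    (hn : Finsupp.single (IsScalarTower.toAlgHom ℂ K N) ((2 : ℤ) ^ k) ∈ orbitRelations K N)
    {S : Scheme.{0}} [IsIntegral S] (f : S ⟶ Spec (.of ℂ)) [IsProper f]
    (hS : IsFunctionFieldOf f K) (x y : ClosedPt S) : RatEquiv f x y :=
  one_of_pow_two f hS hK k (criterion _ hn f hS) x y

end Vale.Agent.P297.H839
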