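import Vale.Agent.P297.H839.Defs

/-!
The polynomials of the second family.
-/

namespace Vale.Agent.P297.H839

/-- `C(s,t) = (ν (s - λ²) + 1 - λ) (t - λ s) - (s - 1) (s - λ)`, with `λ = l`, `ν = n`. -/
noncomputable def CC (l n : ℂ) {N : Type} [Field N] [Algebra ℂ N] (s t : N) : N :=
  (algebraMap ℂ N n * (s - algebraMap ℂ N l ^ 2) + 1 - algebraMap ℂ N l) *
    (t - algebraMap ℂ N l * s) - (s - 1) * (s - algebraMap ℂ N l)

/-- `A(s,t) = (s - 1) (s - λ) (t - λ s) C(s,t)`. -/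
noncomputable def AA (l n : ℂ) {N : Type} [Field N] [Algebra ℂ N] (s t : N) : N :=
  (s - 1) * (s - algebraMap ℂ N l) * (t - algebraMap ℂ N l * s) * CC l n s t

end Vale.Agent.P297.H839
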