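import Vale.Agent.P297.H839.Swap
import Vale.Agent.P297.H839.FamDefs

/-!
The second family: `z² = A(s,t)`, `w² = A(t,s)`.
-/

set_option linter.unusedSectionVars false
set_option linter.style.haveILetI false

open CategoryTheory AlgebraicGeometry IntermediateField Polynomial

namespace Vale.Agent.P297.H839

open Vale.Agent.P297

section

variable {N : Type} [Field N] [Algebra ℂ N]

/-- nonvanishing -/
theorem CC_ne_zero {l : ℂ} (hl : l ≠ 1) (n : ℂ) {s t : N} (hst : AlgebraicIndependent ℂ ![s, t]) :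
    CC l n s t ≠ 0 := by
  have h := aeval_ne_zero hst ((MvPolynomial.C n * (MvPolynomial.X 0 - MvPolynomial.C l ^ 2) + 1 -
    MvPolynomial.C l) * (MvPolynomial.X 1 - MvPolynomial.C l * MvPolynomial.X 0) -
    (MvPolynomial.X 0 - 1) * (MvPolynomial.X 0 - MvPolynomial.C l)) ![2 - l, l * (2 - l)] (by
      simp only [map_sub, map_mul, map_add, map_pow, map_one, MvPolynomial.eval_C,
        MvPolynomial.eval_X, Matrix.cons_val_zero, Matrix.cons_val_one]
      have h1 : (n * (2 - l - l ^ 2) + 1 - l) * (l * (2 - l) - l * (2 - l)) -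
          (2 - l - 1) * (2 - l - l) = - (2 * (1 - l) ^ 2) := by ring
      rw [h1]
      exact neg_ne_zero.2 (mul_ne_zero two_ne_zero (pow_ne_zero 2 (sub_ne_zero.2 hl.symm))))
  unfold CC
  simpa using h

theorem sum_ne_const {s t : N} (hst : AlgebraicIndependent ℂ ![s, t]) (a : ℂ) :
    s + t - algebraMap ℂ N a ≠ 0 := by
  have h := aeval_ne_zero hst (MvPolynomial.X 0 + MvPolynomial.X 1 - MvPolynomial.C a)
    ![a + 1, 0] (by
      simp only [map_sub, map_add, MvPolynomial.eval_C, MvPolynomial.eval_X,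
        Matrix.cons_val_zero, Matrix.cons_val_one]
      ring_nf
      exact one_ne_zero)
  simpa using h

/-- the field `ℂ(s,t,z)` is purely transcendental -/
theorem fam_rational_z {l : ℂ} (n : ℂ) {s t z : N}
    (hst : AlgebraicIndependent ℂ ![s, t]) (hz : z ^ 2 = AA l n s t) :
    IsRational (IntermediateField.adjoin ℂ {s, t} ⊔ IntermediateField.adjoin ℂ {z}) := by
  set L := algebraMap ℂ N l with hL
  set n' := algebraMap ℂ N n with hn
  have hT : t - L * s ≠ 0 := (factors_ne_zero l hst).2.2.1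
  have hs1 : s - 1 ≠ 0 := sub_ne_zero.2 (by simpa using ne_const hst 1)
  have hsl : s - L ≠ 0 := sub_ne_zero.2 (ne_const hst l)
  set F := IntermediateField.adjoin ℂ (Set.range ![s, z / (t - L * s)]) with hF
  have hLF : L ∈ F := F.algebraMap_mem l
  have hnF : n' ∈ F := F.algebraMap_mem n
  have hsF : s ∈ F := IntermediateField.subset_adjoin _ _ ⟨0, rfl⟩
  have hρF : z / (t - L * s) ∈ F := IntermediateField.subset_adjoin _ _ ⟨1, rfl⟩
  set ρ := z / (t - L * s) with hρ
  have hzρ : z = ρ * (t - L * s) := by rw [hρ, div_mul_cancel₀ _ hT]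
  have hg : (s - 1) * (s - L) ≠ 0 := mul_ne_zero hs1 hsl
  have hgF : (s - 1) * (s - L) ∈ F := mul_mem (sub_mem hsF F.one_mem) (sub_mem hsF hLF)
  have hhF : n' * (s - L ^ 2) + 1 - L ∈ F :=
    sub_mem (add_mem (mul_mem hnF (sub_mem hsF (pow_mem hLF 2))) F.one_mem) hLF
  have h1 : (t - L * s) * ((s - 1) * (s - L) * (n' * (s - L ^ 2) + 1 - L) - ρ ^ 2) =
      ((s - 1) * (s - L)) ^ 2 := by
    have h2 : (t - L * s) * ρ ^ 2 = (s - 1) * (s - L) *
        ((n' * (s - L ^ 2) + 1 - L) * (t - L * s) - (s - 1) * (s - L)) := by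
      apply mul_left_cancel₀ hT
      have h3 : (t - L * s) * ((t - L * s) * ρ ^ 2) = z ^ 2 := by rw [hzρ]; ring
      rw [h3, hz]
      unfold AA CC
      rw [← hL, ← hn]
      ring
    linear_combination -h2
  have h2 : (s - 1) * (s - L) * (n' * (s - L ^ 2) + 1 - L) - ρ ^ 2 ≠ 0 := by
    intro h
    rw [h, mul_zero] at h1
    exact pow_ne_zero 2 hg h1.symm
  have htF : t ∈ F := by
    have h3 : t = ((s - 1) * (s - L)) ^ 2 /
        ((s - 1) * (s - L) * (n' * (s - L ^ 2) + 1 - L) - ρ ^ 2) + L * s := by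
      rw [← h1, mul_div_cancel_right₀ _ h2]
      ring
    rw [h3]
    exact add_mem (div_mem (pow_mem hgF 2) (sub_mem (mul_mem hgF hhF) (pow_mem hρF 2)))
      (mul_mem hLF hsF)
  have hzF : z ∈ F := by
    rw [hzρ]
    exact mul_mem hρF (sub_mem htF (mul_mem hLF hsF))
  have hEq : IntermediateField.adjoin ℂ {s, t} ⊔ IntermediateField.adjoin ℂ {z} = F := by
    apply le_antisymm
    · refine sup_le ?_ ?_
      · rw [IntermediateField.adjoin_le_iff]
        rintro a (ha | ha)
        · rw [ha]; exact hsF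
        · rw [Set.mem_singleton_iff.1 ha]; exact htF
      · rw [IntermediateField.adjoin_le_iff]
        rintro a ha
        rw [Set.mem_singleton_iff.1 ha]
        exact hzF
    · rw [hF, IntermediateField.adjoin_le_iff, range_pair]
      have hs' : s ∈ IntermediateField.adjoin ℂ {s, t} ⊔ IntermediateField.adjoin ℂ {z} :=
        (le_sup_left : IntermediateField.adjoin ℂ {s, t} ≤ _)
          (IntermediateField.subset_adjoin _ _ (by simp))
      have ht' : t ∈ IntermediateField.adjoin ℂ {s, t} ⊔ IntermediateField.adjoin ℂ {z} :=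
        (le_sup_left : IntermediateField.adjoin ℂ {s, t} ≤ _)
          (IntermediateField.subset_adjoin _ _ (by simp))
      have hz' : z ∈ IntermediateField.adjoin ℂ {s, t} ⊔ IntermediateField.adjoin ℂ {z} :=
        (le_sup_right : IntermediateField.adjoin ℂ {z} ≤ _)
          (IntermediateField.mem_adjoin_simple_self ℂ _)
      have hL' : L ∈ IntermediateField.adjoin ℂ {s, t} ⊔ IntermediateField.adjoin ℂ {z} :=
        IntermediateField.algebraMap_mem _ l
      rintro a (ha | ha)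
      · rw [ha]; exact hs'
      · rw [Set.mem_singleton_iff.1 ha]
        exact div_mem hz' (sub_mem ht' (mul_mem hL' hs'))
  refine isRational_of_gens hst _ _ hEq ?_
  rw [hEq]
  intro i
  fin_cases i
  · exact isAlgebraic_mem _ _ hsF
  · exact isAlgebraic_mem _ _ htF

/-- the transcendental element `u` satisfies no quadratic equation -/
theorem quad_ne_zero {l : ℂ} (hl : l ≠ 1) {a b c : ℂ} (ha : a ≠ 0) {s t : N}
    (hst : AlgebraicIndependent ℂ ![s, t]) (u : N)
    (hu : u * ((s + t - (1 + algebraMap ℂ N l)) *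
      (s + t - algebraMap ℂ N l * (1 + algebraMap ℂ N l))) =
      (s - algebraMap ℂ N l) * (t - algebraMap ℂ N l)) :
    algebraMap ℂ N a * u ^ 2 + algebraMap ℂ N b * u + algebraMap ℂ N c ≠ 0 := by
  intro h
  have h1 := aeval_ne_zero hst
    (MvPolynomial.C a * ((MvPolynomial.X 0 - MvPolynomial.C l) *
      (MvPolynomial.X 1 - MvPolynomial.C l)) ^ 2 +
    MvPolynomial.C b * ((MvPolynomial.X 0 - MvPolynomial.C l) *
      (MvPolynomial.X 1 - MvPolynomial.C l)) *
      ((MvPolynomial.X 0 + MvPolynomial.X 1 - (1 + MvPolynomial.C l)) *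
      (MvPolynomial.X 0 + MvPolynomial.X 1 - MvPolynomial.C l * (1 + MvPolynomial.C l))) +
    MvPolynomial.C c * ((MvPolynomial.X 0 + MvPolynomial.X 1 - (1 + MvPolynomial.C l)) *
      (MvPolynomial.X 0 + MvPolynomial.X 1 - MvPolynomial.C l * (1 + MvPolynomial.C l))) ^ 2)
    ![2 - l, 2 * l - 1] (by
      simp only [map_sub, map_mul, map_add, map_pow, map_one, MvPolynomial.eval_C,
        MvPolynomial.eval_X, Matrix.cons_val_zero, Matrix.cons_val_one]
      have h2 : a * ((2 - l - l) * (2 * l - 1 - l)) ^ 2 +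
          b * ((2 - l - l) * (2 * l - 1 - l)) * ((2 - l + (2 * l - 1) - (1 + l)) *
            (2 - l + (2 * l - 1) - l * (1 + l))) +
          c * ((2 - l + (2 * l - 1) - (1 + l)) * (2 - l + (2 * l - 1) - l * (1 + l))) ^ 2 =
          a * (4 * (1 - l) ^ 4) := by ring
      rw [h2]
      exact mul_ne_zero ha (mul_ne_zero (by norm_num) (pow_ne_zero 4 (sub_ne_zero.2 hl.symm))))
  apply h1
  simp only [map_sub, map_mul, map_add, map_pow, map_one, MvPolynomial.aeval_C,
    MvPolynomial.aeval_X, Matrix.cons_val_zero, Matrix.cons_val_one]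
  rw [← hu]
  linear_combination ((s + t - (1 + algebraMap ℂ N l)) *
      (s + t - algebraMap ℂ N l * (1 + algebraMap ℂ N l))) ^ 2 * h

/-- the product of the conjugate cubics -/
theorem key_identity (s t L n u : N)
    (hu : u * ((s + t - (1 + L)) * (s + t - L * (1 + L))) = (s - L) * (t - L)) :
    ((s + t - (1 + L)) * (s + t - L * (1 + L))) ^ 2 *
      (u * (((1 + L) * n + 1) ^ 2 * u - n * (L * n + 1)) * (s + t) +
        (-(1 + L) * ((1 + L) * n + 1) ^ 2 * u ^ 2 +
          (-L ^ 4 * n ^ 2 - L ^ 3 * n ^ 2 - 2 * L ^ 3 * n + 2 * L ^ 2 * n ^ 2 - 2 * L ^ 2 * n -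
            L ^ 2 + 2 * L * n ^ 2 + 4 * L * n - L + 2 * n + 2) * u +
          (L - 1) * (L * n + 1) ^ 2)) =
    ((n * (s - L ^ 2) + 1 - L) * (t - L * s) - (s - 1) * (s - L)) *
      ((n * (t - L ^ 2) + 1 - L) * (s - L * t) - (t - 1) * (t - L)) * (s + t - (1 + L)) := by
  linear_combination ((((1 + L) * n + 1) ^ 2 * (s + t) - (1 + L) * ((1 + L) * n + 1) ^ 2) *
    (u * ((s + t - (1 + L)) * (s + t - L * (1 + L))) + (s - L) * (t - L)) +
    ((s + t - (1 + L)) * (s + t - L * (1 + L))) * (- n * (L * n + 1) * (s + t) +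
      (-L ^ 4 * n ^ 2 - L ^ 3 * n ^ 2 - 2 * L ^ 3 * n + 2 * L ^ 2 * n ^ 2 - 2 * L ^ 2 * n -
            L ^ 2 + 2 * L * n ^ 2 + 4 * L * n - L + 2 * n + 2))) * hu

/-- the field `ℂ(s+t,st,zw)` is purely transcendental -/
theorem fam_rational_zw {l n : ℂ} (hl : l ≠ 1) (hl' : l ≠ -1) (hm : (1 + l) * n + 1 ≠ 0)
    {s t z w : N} (hst : AlgebraicIndependent ℂ ![s, t]) (hz : z ^ 2 = AA l n s t)
    (hw : w ^ 2 = AA l n t s) :
    IsRational (IntermediateField.adjoin ℂ {s + t, s * t} ⊔ IntermediateField.adjoin ℂ {z * w}) := by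
  have hts := indep_swap hst
  set L := algebraMap ℂ N l with hL
  set n' := algebraMap ℂ N n with hn
  -- nonvanishing
  have hT : t - L * s ≠ 0 := (factors_ne_zero l hst).2.2.1
  have hT' : s - L * t ≠ 0 := (factors_ne_zero l hst).2.2.2
  have hs1 : s - 1 ≠ 0 := sub_ne_zero.2 (by simpa using ne_const hst 1)
  have hsl : s - L ≠ 0 := sub_ne_zero.2 (ne_const hst l)
  have ht1 : t - 1 ≠ 0 := sub_ne_zero.2 (by simpa using ne_const hts 1)
  have htl : t - L ≠ 0 := sub_ne_zero.2 (ne_const hts l)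
  have hC : CC l n s t ≠ 0 := CC_ne_zero hl n hst
  have hC' : CC l n t s ≠ 0 := CC_ne_zero hl n hts
  have hq1 : s + t - (1 + L) ≠ 0 := by
    have h := sum_ne_const hst (1 + l)
    rwa [map_add, map_one, ← hL] at h
  have hq2 : s + t - L * (1 + L) ≠ 0 := by
    have h := sum_ne_const hst (l * (1 + l))
    rwa [map_mul, map_add, map_one, ← hL] at h
  have hD : (s + t - (1 + L)) * (s + t - L * (1 + L)) ≠ 0 := mul_ne_zero hq1 hq2
  -- the first generator
  obtain ⟨u, hudef⟩ : ∃ u : N, u = (s - L) * (t - L) /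
      ((s + t - (1 + L)) * (s + t - L * (1 + L))) := ⟨_, rfl⟩
  have hu : u * ((s + t - (1 + L)) * (s + t - L * (1 + L))) = (s - L) * (t - L) := by
    rw [hudef, div_mul_cancel₀ _ hD]
  have hu0 : u ≠ 0 := by
    rw [hudef]
    exact div_ne_zero (mul_ne_zero hsl htl) hD
  obtain ⟨A, hA⟩ : ∃ A : N, A = ((1 + L) * n' + 1) ^ 2 * u - n' * (L * n' + 1) := ⟨_, rfl⟩
  obtain ⟨B, hB⟩ : ∃ B : N, B = -(1 + L) * ((1 + L) * n' + 1) ^ 2 * u ^ 2 +
          (-L ^ 4 * n' ^ 2 - L ^ 3 * n' ^ 2 - 2 * L ^ 3 * n' + 2 * L ^ 2 * n' ^ 2 -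
            2 * L ^ 2 * n' - L ^ 2 + 2 * L * n' ^ 2 + 4 * L * n' - L + 2 * n' + 2) * u +
          (L - 1) * (L * n' + 1) ^ 2 := ⟨_, rfl⟩
  obtain ⟨c, hc⟩ : ∃ c : N, c = (1 + L) ^ 2 * u - L := ⟨_, rfl⟩
  obtain ⟨e, he⟩ : ∃ e : N, e = L - 1 - u * (L * (1 + L)) := ⟨_, rfl⟩
  obtain ⟨D, hDdef⟩ : ∃ D : N, D = (s + t - (1 + L)) * (s + t - L * (1 + L)) := ⟨_, rfl⟩
  obtain ⟨R, hR⟩ : ∃ R : N, R = u * A * (s + t) + B := ⟨_, rfl⟩
  have hD0 : D ≠ 0 := by rw [hDdef]; exact hD
  have hkey : D ^ 2 * R = CC l n s t * CC l n t s * (s + t - (1 + L)) := by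
    rw [hR, hA, hB, hDdef]
    unfold CC
    rw [← hL, ← hn]
    exact key_identity s t L n' u hu
  have hR0 : R ≠ 0 := by
    intro h
    rw [h, mul_zero] at hkey
    exact mul_ne_zero (mul_ne_zero hC hC') hq1 hkey.symm
  have hc0 : c ≠ 0 := by
    intro h
    have h1 : (t - L * s) * (s - L * t) = D * c := by
      rw [hDdef, hc]
      linear_combination (-(1 + L) ^ 2) * hu
    rw [h, mul_zero] at h1
    exact mul_ne_zero hT hT' h1
  have hzw : (z * w) ^ 2 = u * c * (u * (s + t) + e) * (D ^ 4 * R) := by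
    have h1 : (t - L * s) * (s - L * t) = D * c := by
      rw [hDdef, hc]
      linear_combination (-(1 + L) ^ 2) * hu
    have h2 : (s - 1) * (t - 1) = (s + t - (1 + L)) * (u * (s + t) + e) := by
      rw [he]
      linear_combination (-1 : N) * hu
    have h3 : (s - L) * (t - L) = u * D := by rw [hDdef, hu]
    have h4 : (z * w) ^ 2 = ((s - 1) * (t - 1)) * ((s - L) * (t - L)) *
        ((t - L * s) * (s - L * t)) * (CC l n s t * CC l n t s) := by
      rw [mul_pow, hz, hw]
      unfold AA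
      rw [← hL]
      ring
    rw [h4, h1, h2, h3]
    linear_combination (-(u * (s + t) + e) * u * D ^ 2 * c) * hkey
  -- the second generator
  obtain ⟨v, hvdef⟩ : ∃ v : N, v = z * w / (D ^ 2 * R) := ⟨_, rfl⟩
  have hv : z * w = v * (D ^ 2 * R) := by
    rw [hvdef, div_mul_cancel₀ _ (mul_ne_zero (pow_ne_zero 2 hD0) hR0)]
  have hv2 : v ^ 2 * R = u * c * (u * (s + t) + e) := by
    apply mul_right_cancel₀ (mul_ne_zero (pow_ne_zero 4 hD0) hR0)
    rw [← hzw, hv]
    ring
  have hrel : (s + t) * (u * (v ^ 2 * A - u * c)) = u * c * e - v ^ 2 * B := by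
    rw [hR] at hv2
    linear_combination hv2
  have hΔ : u * (v ^ 2 * A - u * c) ≠ 0 := by
    intro h
    rw [h, mul_zero] at hrel
    have h1 : v ^ 2 * A = u * c := by
      rcases mul_eq_zero.1 h with h2 | h2
      · exact absurd h2 hu0
      · exact sub_eq_zero.1 h2
    have h2 : e * A - B = 0 := by
      have h3 : (u * c) * (e * A - B) = 0 := by
        linear_combination (-A) * hrel + B * h1
      exact (mul_eq_zero.1 h3).resolve_left (mul_ne_zero hu0 hc0)
    have h3 : (1 + l) * ((1 + l) * n + 1) ^ 2 * (1 - l) ≠ 0 := by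
      refine mul_ne_zero (mul_ne_zero ?_ (pow_ne_zero 2 hm)) (sub_ne_zero.2 hl.symm)
      intro h4
      apply hl'
      linear_combination h4
    have h4 := quad_ne_zero hl (b := (l - 1) * ((1 + l) * n + 1) ^ 2 + l * (1 + l) * (n * (l * n + 1))
      - (-l ^ 4 * n ^ 2 - l ^ 3 * n ^ 2 - 2 * l ^ 3 * n + 2 * l ^ 2 * n ^ 2 -
            2 * l ^ 2 * n - l ^ 2 + 2 * l * n ^ 2 + 4 * l * n - l + 2 * n + 2))
      (c := -(l - 1) * (n * (l * n + 1)) - (l - 1) * (l * n + 1) ^ 2) h3 hst u hu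
    apply h4
    simp only [map_sub, map_mul, map_add, map_pow, map_one, map_neg, map_ofNat]
    rw [← hL, ← hn]
    rw [hA, hB, he] at h2
    linear_combination h2
  set F := IntermediateField.adjoin ℂ (Set.range ![u, v]) with hF
  have huF : u ∈ F := IntermediateField.subset_adjoin _ _ ⟨0, rfl⟩
  have hvF : v ∈ F := IntermediateField.subset_adjoin _ _ ⟨1, rfl⟩
  have hAF : ∀ G : IntermediateField ℂ N, u ∈ G → A ∈ G ∧ B ∈ G ∧ c ∈ G ∧ e ∈ G := by
    intro G huG
    have hLG : L ∈ G := G.algebraMap_mem l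
    have hnG : n' ∈ G := G.algebraMap_mem n
    have h1 : (1 : N) ∈ G := G.one_mem
    have h1L : 1 + L ∈ G := add_mem h1 hLG
    have hmG : (1 + L) * n' + 1 ∈ G := add_mem (mul_mem h1L hnG) h1
    have hLn : L * n' + 1 ∈ G := add_mem (mul_mem hLG hnG) h1
    have h2G : (2 : N) ∈ G := ofNat_mem G 2
    have h4G : (4 : N) ∈ G := ofNat_mem G 4
    refine ⟨?_, ?_, ?_, ?_⟩
    · rw [hA]
      exact sub_mem (mul_mem (pow_mem hmG 2) huG) (mul_mem hnG hLn)
    · rw [hB]
      refine add_mem (add_mem (mul_mem (mul_mem (neg_mem h1L) (pow_mem hmG 2)) (pow_mem huG 2))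
        (mul_mem ?_ huG)) (mul_mem (sub_mem hLG h1) (pow_mem hLn 2))
      have e1 : -L ^ 4 * n' ^ 2 - L ^ 3 * n' ^ 2 - 2 * L ^ 3 * n' + 2 * L ^ 2 * n' ^ 2 -
            2 * L ^ 2 * n' - L ^ 2 + 2 * L * n' ^ 2 + 4 * L * n' - L + 2 * n' + 2 =
          algebraMap ℂ N (-l ^ 4 * n ^ 2 - l ^ 3 * n ^ 2 - 2 * l ^ 3 * n + 2 * l ^ 2 * n ^ 2 -
            2 * l ^ 2 * n - l ^ 2 + 2 * l * n ^ 2 + 4 * l * n - l + 2 * n + 2) := by
        simp only [map_sub, map_mul, map_add, map_pow, map_neg, map_ofNat]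
        rw [← hL, ← hn]
      rw [e1]
      exact G.algebraMap_mem _
    · rw [hc]
      exact sub_mem (mul_mem (pow_mem h1L 2) huG) hLG
    · rw [he]
      exact sub_mem (sub_mem hLG h1) (mul_mem huG (mul_mem hLG h1L))
  obtain ⟨hAF', hBF, hcF, heF⟩ := hAF F huF
  have hLF : L ∈ F := F.algebraMap_mem l
  have hqF : s + t ∈ F := by
    have h1 : s + t = (u * c * e - v ^ 2 * B) / (u * (v ^ 2 * A - u * c)) := by
      rw [eq_div_iff hΔ, hrel]
    rw [h1]
    exact div_mem (sub_mem (mul_mem (mul_mem huF hcF) heF) (mul_mem (pow_mem hvF 2) hBF))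
      (mul_mem huF (sub_mem (mul_mem (pow_mem hvF 2) hAF') (mul_mem huF hcF)))
  have hDG : ∀ G : IntermediateField ℂ N, s + t ∈ G → D ∈ G := by
    intro G hq
    have hLG : L ∈ G := G.algebraMap_mem l
    rw [hDdef]
    exact mul_mem (sub_mem hq (add_mem G.one_mem hLG))
      (sub_mem hq (mul_mem hLG (add_mem G.one_mem hLG)))
  have hDF : D ∈ F := hDG F hqF
  have hpF : s * t ∈ F := by
    have h1 : s * t = u * D + L * (s + t) - L ^ 2 := by
      rw [hDdef, hu]
      ring
    rw [h1]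
    exact sub_mem (add_mem (mul_mem huF hDF) (mul_mem hLF hqF)) (pow_mem hLF 2)
  have hRF : R ∈ F := by
    rw [hR]
    exact add_mem (mul_mem (mul_mem huF hAF') hqF) hBF
  have hzwF : z * w ∈ F := by
    rw [hv]
    exact mul_mem hvF (mul_mem (pow_mem hDF 2) hRF)
  have hEq : IntermediateField.adjoin ℂ {s + t, s * t} ⊔ IntermediateField.adjoin ℂ {z * w} =
      F := by
    apply le_antisymm
    · refine sup_le ?_ ?_
      · rw [IntermediateField.adjoin_le_iff]
        rintro a (ha | ha)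
        · rw [ha]; exact hqF
        · rw [Set.mem_singleton_iff.1 ha]; exact hpF
      · rw [IntermediateField.adjoin_le_iff]
        rintro a ha
        rw [Set.mem_singleton_iff.1 ha]
        exact hzwF
    · rw [hF, IntermediateField.adjoin_le_iff, range_pair]
      set G := IntermediateField.adjoin ℂ {s + t, s * t} ⊔ IntermediateField.adjoin ℂ {z * w}
        with hG
      have hq' : s + t ∈ G :=
        (le_sup_left : IntermediateField.adjoin ℂ {s + t, s * t} ≤ _)
          (IntermediateField.subset_adjoin _ _ (by simp))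
      have hp' : s * t ∈ G :=
        (le_sup_left : IntermediateField.adjoin ℂ {s + t, s * t} ≤ _)
          (IntermediateField.subset_adjoin _ _ (by simp))
      have hz' : z * w ∈ G :=
        (le_sup_right : IntermediateField.adjoin ℂ {z * w} ≤ _)
          (IntermediateField.mem_adjoin_simple_self ℂ _)
      have hL' : L ∈ G := IntermediateField.algebraMap_mem _ l
      have hD' : D ∈ G := hDG G hq'
      have hu' : u ∈ G := by
        have h1 : u = (s * t - L * (s + t) + L ^ 2) / D := by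
          rw [hudef, hDdef]
          congr 1
          ring
        rw [h1]
        exact div_mem (add_mem (sub_mem hp' (mul_mem hL' hq')) (pow_mem hL' 2)) hD'
      obtain ⟨hA', hB', -, -⟩ := hAF G hu'
      have hR' : R ∈ G := by
        rw [hR]
        exact add_mem (mul_mem (mul_mem hu' hA') hq') hB'
      rintro a (ha | ha)
      · rw [ha]; exact hu'
      · rw [Set.mem_singleton_iff.1 ha, hvdef]
        exact div_mem hz' (mul_mem (pow_mem hD' 2) hR')
  refine isRational_of_gens hst _ _ hEq ?_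
  rw [hEq]
  have hs : IsAlgebraic F s := by
    refine ⟨X ^ 2 - Polynomial.C ⟨s + t, hqF⟩ * X + Polynomial.C ⟨s * t, hpF⟩, ?_, ?_⟩
    · apply Monic.ne_zero
      monicity!
    · simp only [map_add, map_sub, map_pow, aeval_X, map_mul, aeval_C]
      change s ^ 2 - (s + t) * s + s * t = 0
      ring
  intro i
  fin_cases i
  · exact hs
  · have h1 : t = (s + t) - s := by ring
    have h2 : IsAlgebraic F ((s + t) - s) := (isAlgebraic_mem F _ hqF).sub hs
    rw [← h1] at h2
    exact h2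

theorem map_AA {K : Type} [Field K] [Algebra ℂ K] (m : K →ₐ[ℂ] N) (l n : ℂ) (s t : K) :
    m (AA l n s t) = AA l n (m s) (m t) := by
  unfold AA CC
  simp only [map_mul, map_sub, map_add, map_pow, map_one, AlgHom.commutes]

end

/-- **The second family.** -/
theorem second_family {l n : ℂ} (hl : l ≠ 1) (hl' : l ≠ -1) (hm : (1 + l) * n + 1 ≠ 0)
    {N : Type} [Field N] [Algebra ℂ N] {s t z w : N} (hst : AlgebraicIndependent ℂ ![s, t])
    (hz : z ^ 2 = AA l n s t) (hw : w ^ 2 = AA l n t s)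
    {S : Scheme.{0}} [IsIntegral S] (f : S ⟶ Spec (.of ℂ)) [IsProper f]
    (hS : IsFunctionFieldOf f (IntermediateField.adjoin ℂ {s + t, s * t, z + w, z * w}))
    (x y : ClosedPt S) : RatEquiv f x y := by
  obtain ⟨B, hB⟩ : ∃ B : IntermediateField ℂ N, B = IntermediateField.adjoin ℂ {s, t} := ⟨_, rfl⟩
  have hsB : s ∈ B := by rw [hB]; exact IntermediateField.subset_adjoin _ _ (by simp)
  have htB : t ∈ B := by rw [hB]; exact IntermediateField.subset_adjoin _ _ (by simp)
  obtain ⟨σ, hσ, hσs, hσt⟩ := exists_swap hst B hB ⟨s, hsB⟩ ⟨t, htB⟩ rfl rfl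
  have hfix := fixed_swap B hB ⟨s, hsB⟩ ⟨t, htB⟩ rfl rfl σ hσs hσt
  have hb : B.val (AA l n ⟨s, hsB⟩ ⟨t, htB⟩) = AA l n s t := map_AA B.val l n _ _
  have hb' : B.val (σ (AA l n ⟨s, hsB⟩ ⟨t, htB⟩)) = AA l n t s := by
    have h1 := map_AA (B.val.comp σ.toAlgHom) l n ⟨s, hsB⟩ ⟨t, htB⟩
    have h2 : (B.val.comp σ.toAlgHom) ⟨s, hsB⟩ = t := congrArg B.val hσs
    have h3 : (B.val.comp σ.toAlgHom) ⟨t, htB⟩ = s := congrArg B.val hσt
    rw [h2, h3] at h1
    exact h1
  have hK : (IntermediateField.fixedField (Subgroup.zpowers σ)).map B.val ⊔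
      IntermediateField.adjoin ℂ {z + w} =
      IntermediateField.adjoin ℂ {s + t, s * t, z + w, z * w} := by
    have hmem : AA l n s t + AA l n t s ∈ IntermediateField.adjoin ℂ {s + t, s * t} := by
      rw [← hfix]
      refine ⟨AA l n ⟨s, hsB⟩ ⟨t, htB⟩ + σ (AA l n ⟨s, hsB⟩ ⟨t, htB⟩), mem_fixed ?_, ?_⟩
      · rw [map_add, hσ, add_comm]
      · rw [← hb, ← hb', ← map_add]
        rfl
    rw [hfix]
    apply le_antisymm
    · refine sup_le ?_ ?_
      · apply IntermediateField.adjoin.mono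
        rintro a (ha | ha)
        · rw [ha]; simp
        · rw [Set.mem_singleton_iff.1 ha]; simp
      · apply IntermediateField.adjoin.mono
        rintro a ha
        rw [Set.mem_singleton_iff.1 ha]
        simp
    · rw [IntermediateField.adjoin_le_iff]
      set G := IntermediateField.adjoin ℂ {s + t, s * t} ⊔ IntermediateField.adjoin ℂ {z + w}
      have hle : IntermediateField.adjoin ℂ {s + t, s * t} ≤ G := le_sup_left
      have hq : s + t ∈ G := hle (IntermediateField.subset_adjoin _ _ (by simp))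
      have hp : s * t ∈ G := hle (IntermediateField.subset_adjoin _ _ (by simp))
      have hθ : z + w ∈ G :=
        (le_sup_right : IntermediateField.adjoin ℂ {z + w} ≤ _)
          (IntermediateField.mem_adjoin_simple_self ℂ _)
      have hζ : z * w ∈ G := by
        haveI : CharZero N := charZero_of_injective_algebraMap (algebraMap ℂ N).injective
        have h3 : z * w = ((z + w) ^ 2 - (AA l n s t + AA l n t s)) / 2 := by
          rw [← hz, ← hw, eq_div_iff two_ne_zero]
          ring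
        rw [h3]
        exact div_mem (sub_mem (pow_mem hθ 2) (hle hmem)) (ofNat_mem _ 2)
      rintro a (ha | ha | ha | ha)
      · rw [ha]; exact hq
      · rw [ha]; exact hp
      · rw [ha]; exact hθ
      · rw [Set.mem_singleton_iff.1 ha]; exact hζ
  rw [← hK] at hS
  refine twins B.val σ hσ (AA l n ⟨s, hsB⟩ ⟨t, htB⟩) z w (hz.trans hb.symm) (hw.trans hb'.symm)
    ?_ ?_ f hS x y
  · rw [IntermediateField.fieldRange_val, hB]
    exact fam_rational_z n hst hz
  · rw [hfix]
    exact fam_rational_zw hl hl' hm hst hz hw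

end Vale.Agent.P297.H839
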