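import Vale.Agent.P297.H839.Twin
import Mathlib.RingTheory.AlgebraicIndependent.Adjoin

/-!
The interchange of two algebraically independent elements.
-/

set_option linter.unusedSectionVars false
set_option linter.style.haveILetI false

open CategoryTheory AlgebraicGeometry IntermediateField Polynomial

namespace Vale.Agent.P297.H839

open Vale.Agent.P297

section

variable {N : Type} [Field N] [Algebra ℂ N]

theorem exists_fraction_equiv (x : Fin 2 → N) (hx : AlgebraicIndependent ℂ x)
    (B : IntermediateField ℂ N) (hB : B = IntermediateField.adjoin ℂ (Set.range x)) :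
    ∃ e : FractionRing (MvPolynomial (Fin 2) ℂ) ≃ₐ[ℂ] B,
      ∀ i, (e (algebraMap (MvPolynomial (Fin 2) ℂ) (FractionRing (MvPolynomial (Fin 2) ℂ))
        (MvPolynomial.X i)) : N) = x i := by
  subst hB
  exact ⟨hx.aevalEquivField, fun i => by
    rw [AlgebraicIndependent.aevalEquivField_algebraMap_apply_coe, MvPolynomial.aeval_X]⟩

theorem range_pair (a b : N) : Set.range ![a, b] = {a, b} := by simp [Set.pair_comm]

theorem indep_swap {s t : N} (hst : AlgebraicIndependent ℂ ![s, t]) :
    AlgebraicIndependent ℂ ![t, s] := by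
  have h := hst.comp (Equiv.swap (0 : Fin 2) 1) (Equiv.swap (0 : Fin 2) 1).injective
  have h2 : ![s, t] ∘ (Equiv.swap (0 : Fin 2) 1) = ![t, s] := by
    ext i
    fin_cases i
    · simp
    · simp
  rw [h2] at h
  exact h

/-- the interchange -/
theorem exists_swap {s t : N} (hst : AlgebraicIndependent ℂ ![s, t]) (B : IntermediateField ℂ N)
    (hB : B = IntermediateField.adjoin ℂ {s, t}) (s₀ t₀ : B) (hs₀ : (s₀ : N) = s)
    (ht₀ : (t₀ : N) = t) :
    ∃ σ : B ≃ₐ[ℂ] B, (∀ c, σ (σ c) = c) ∧ σ s₀ = t₀ ∧ σ t₀ = s₀ := by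
  obtain ⟨e, he⟩ := exists_fraction_equiv ![s, t] hst B (by rw [hB, range_pair])
  obtain ⟨e', he'⟩ := exists_fraction_equiv ![t, s] (indep_swap hst) B
    (by rw [hB, range_pair, Set.pair_comm])
  have h0 : e (algebraMap (MvPolynomial (Fin 2) ℂ) _ (MvPolynomial.X 0)) = s₀ := Subtype.ext ((he 0).trans hs₀.symm)
  have h1 : e (algebraMap (MvPolynomial (Fin 2) ℂ) _ (MvPolynomial.X 1)) = t₀ := Subtype.ext ((he 1).trans ht₀.symm)
  have h0' : e' (algebraMap (MvPolynomial (Fin 2) ℂ) _ (MvPolynomial.X 0)) = t₀ := Subtype.ext ((he' 0).trans ht₀.symm)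
  have h1' : e' (algebraMap (MvPolynomial (Fin 2) ℂ) _ (MvPolynomial.X 1)) = s₀ := Subtype.ext ((he' 1).trans hs₀.symm)
  obtain ⟨σ, hσ⟩ : ∃ σ : B ≃ₐ[ℂ] B, ∀ c, σ c = e' (e.symm c) := ⟨e.symm.trans e', fun c => rfl⟩
  have hs : σ s₀ = t₀ := by rw [hσ, ← h0, AlgEquiv.symm_apply_apply, h0']
  have ht : σ t₀ = s₀ := by rw [hσ, ← h1, AlgEquiv.symm_apply_apply, h1']
  refine ⟨σ, ?_, hs, ht⟩
  have h3 : ∀ c ∈ IntermediateField.adjoin ℂ ({s₀, t₀} : Set B),
      ((σ.toAlgHom.comp σ.toAlgHom) c : B) = AlgHom.id ℂ B c := by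
    apply agree_on_adjoin
    rintro a (ha | ha)
    · change σ (σ a) = a
      rw [ha, hs, ht]
    · change σ (σ a) = a
      rw [Set.mem_singleton_iff.1 ha, ht, hs]
  have h4 : IntermediateField.adjoin ℂ ({s₀, t₀} : Set B) = ⊤ := by
    apply adjoin_subtype_top {s, t} B hB
    rintro a (rfl | rfl)
    · exact ⟨s₀, by simp, hs₀⟩
    · exact ⟨t₀, by simp, ht₀⟩
  intro c
  exact h3 c (by rw [h4]; trivial)

/-- the fixed field of the interchange -/
theorem fixed_swap {s t : N} (B : IntermediateField ℂ N)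
    (hB : B = IntermediateField.adjoin ℂ {s, t}) (s₀ t₀ : B) (hs₀ : (s₀ : N) = s)
    (ht₀ : (t₀ : N) = t) (σ : B ≃ₐ[ℂ] B) (hs : σ s₀ = t₀) (ht : σ t₀ = s₀) :
    (IntermediateField.fixedField (Subgroup.zpowers σ)).map B.val =
      IntermediateField.adjoin ℂ {s + t, s * t} := by
  haveI : CharZero B := charZero_of_injective_algebraMap (algebraMap ℂ B).injective
  have h4 : IntermediateField.adjoin ℂ ({s₀, t₀} : Set B) = ⊤ := by
    apply adjoin_subtype_top {s, t} B hB
    rintro a (rfl | rfl)
    · exact ⟨s₀, by simp, hs₀⟩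
    · exact ⟨t₀, by simp, ht₀⟩
  have h5 : IntermediateField.fixedField (Subgroup.zpowers σ) =
      IntermediateField.adjoin ℂ ({s₀ + t₀, s₀ * t₀} : Set B) := by
    set F := IntermediateField.adjoin ℂ ({s₀ + t₀, s₀ * t₀} : Set B) with hF
    have hq : s₀ + t₀ ∈ F := IntermediateField.subset_adjoin _ _ (by simp)
    have hp : s₀ * t₀ ∈ F := IntermediateField.subset_adjoin _ _ (by simp)
    have hle : F ≤ IntermediateField.fixedField (Subgroup.zpowers σ) := by
      rw [hF, IntermediateField.adjoin_le_iff]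
      rintro a (rfl | rfl)
      · exact mem_fixed (by rw [map_add, hs, ht, add_comm])
      · exact mem_fixed (by rw [map_mul, hs, ht, mul_comm])
    apply le_antisymm _ hle
    intro c hc
    have hy : (s₀ - t₀) ^ 2 ∈ F := by
      have h6 : (s₀ - t₀) ^ 2 = (s₀ + t₀) ^ 2 - 4 * (s₀ * t₀) := by ring
      rw [h6]
      exact sub_mem (pow_mem hq 2) (mul_mem (ofNat_mem _ 4) hp)
    have htop : IntermediateField.adjoin ℂ ({s₀ + t₀, s₀ - t₀} : Set B) = ⊤ := by
      rw [eq_top_iff, ← h4, IntermediateField.adjoin_le_iff]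
      have h7 : s₀ + t₀ ∈ IntermediateField.adjoin ℂ ({s₀ + t₀, s₀ - t₀} : Set B) :=
        IntermediateField.subset_adjoin _ _ (by simp)
      have h8 : s₀ - t₀ ∈ IntermediateField.adjoin ℂ ({s₀ + t₀, s₀ - t₀} : Set B) :=
        IntermediateField.subset_adjoin _ _ (by simp)
      rintro a (ha | ha)
      · have h9 : s₀ = ((s₀ + t₀) + (s₀ - t₀)) / 2 := by ring
        rw [ha]
        have h10 := div_mem (add_mem h7 h8)
          (ofNat_mem (IntermediateField.adjoin ℂ ({s₀ + t₀, s₀ - t₀} : Set B)) 2)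
        rwa [← h9] at h10
      · have h9 : t₀ = ((s₀ + t₀) - (s₀ - t₀)) / 2 := by ring
        rw [Set.mem_singleton_iff.1 ha]
        have h10 := div_mem (sub_mem h7 h8)
          (ofNat_mem (IntermediateField.adjoin ℂ ({s₀ + t₀, s₀ - t₀} : Set B)) 2)
        rwa [← h9] at h10
    obtain ⟨a, ha, b, hb, rfl⟩ := exists_quad F (s₀ - t₀) hy _ (by
      rintro x (rfl | rfl)
      · exact Or.inl hq
      · exact Or.inr rfl) htop c
    have h10 := fixed_of_mem hc
    rw [map_add, map_mul, map_sub, hs, ht, fixed_of_mem (hle ha), fixed_of_mem (hle hb)] at h10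
    have h11 : (2 : B) * (b * (s₀ - t₀)) = 0 := by linear_combination -h10
    have h12 : b * (s₀ - t₀) = 0 := (mul_eq_zero.1 h11).resolve_left two_ne_zero
    rw [h12, add_zero]
    exact ha
  rw [h5, IntermediateField.adjoin_map, Set.image_pair]
  have h6 : B.val (s₀ + t₀) = s + t := by
    rw [map_add]
    exact congrArg₂ (· + ·) hs₀ ht₀
  have h7 : B.val (s₀ * t₀) = s * t := by
    rw [map_mul]
    exact congrArg₂ (· * ·) hs₀ ht₀
  rw [h6, h7]

/-- independence of a family over which an independent family is algebraic -/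
theorem indep_of_algebraic {k : ℕ} {s x : Fin k → N} (hs : AlgebraicIndependent ℂ s)
    (h : ∀ i, IsAlgebraic (IntermediateField.adjoin ℂ (Set.range x)) (s i)) :
    AlgebraicIndependent ℂ x := by
  set M := IntermediateField.adjoin ℂ (Set.range x ∪ Set.range s) with hM
  have hx' : ∀ i, x i ∈ M := fun i => IntermediateField.subset_adjoin _ _ (Or.inl ⟨i, rfl⟩)
  have hs' : ∀ i, s i ∈ M := fun i => IntermediateField.subset_adjoin _ _ (Or.inr ⟨i, rfl⟩)
  let x' : Fin k → M := fun i => ⟨x i, hx' i⟩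
  let s' : Fin k → M := fun i => ⟨s i, hs' i⟩
  have h1 : AlgebraicIndependent ℂ s' := by
    apply AlgebraicIndependent.of_comp M.val
    exact hs
  have hmap : (IntermediateField.adjoin ℂ (Set.range x')).map M.val =
      IntermediateField.adjoin ℂ (Set.range x) := by
    rw [IntermediateField.adjoin_map, ← Set.range_comp]
    rfl
  have h2 : AlgebraicIndependent ℂ x' := by
    apply algIndep_of_trdeg h1
    intro y
    refine isAlgebraic_of_gens _ (Set.range x' ∪ Set.range s') ?_ ?_ y
    · apply adjoin_subtype_top _ M hM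
      rintro a (⟨i, rfl⟩ | ⟨i, rfl⟩)
      · exact ⟨x' i, Or.inl ⟨i, rfl⟩, rfl⟩
      · exact ⟨s' i, Or.inr ⟨i, rfl⟩, rfl⟩
    · rintro a (⟨i, rfl⟩ | ⟨i, rfl⟩)
      · exact isAlgebraic_mem _ _ (IntermediateField.subset_adjoin _ _ ⟨i, rfl⟩)
      · have hcod : ∀ c : IntermediateField.adjoin ℂ (Set.range x'),
            M.val (c : M) ∈ IntermediateField.adjoin ℂ (Set.range x) := by
          intro c
          rw [← hmap]
          exact ⟨c, c.2, rfl⟩
        let g : IntermediateField.adjoin ℂ (Set.range x') →+*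
            IntermediateField.adjoin ℂ (Set.range x) :=
          ((M.val : M →+* N).comp
            (algebraMap (IntermediateField.adjoin ℂ (Set.range x')) M)).codRestrict
            (IntermediateField.adjoin ℂ (Set.range x)) hcod
        have hg : Function.Surjective g := by
          rintro ⟨c, hc⟩
          have hc' := hc
          rw [← hmap] at hc'
          obtain ⟨d, hd, rfl⟩ := hc'
          exact ⟨⟨d, hd⟩, rfl⟩
        refine IsAlgebraic.of_ringHom_of_comp_eq g (M.val : M →+* N) (h i) hg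
          M.val.toRingHom.injective ?_
        apply RingHom.ext
        intro c
        rfl
  exact h2.map' (f := M.val) M.val.toRingHom.injective

/-- a field generated by as many elements as an independent family that it contains -/
theorem isRational_of_gens {k : ℕ} {s : Fin k → N} (hs : AlgebraicIndependent ℂ s)
    (F : IntermediateField ℂ N) (x : Fin k → N) (hF : F = IntermediateField.adjoin ℂ (Set.range x))
    (h : ∀ i, IsAlgebraic F (s i)) : IsRational F := by
  subst hF
  exact ⟨k, x, indep_of_algebraic hs h, rfl⟩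

end

end Vale.Agent.P297.H839
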