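import Vale.Agent.P297.H839.Crit
import Mathlib.Algebra.Polynomial.SpecificDegree

/-!
Galois twins: `K = L(√a + √a')` for an element `a` of a quadratic extension of `L`.
-/

set_option linter.unusedSectionVars false
set_option linter.style.haveILetI false

open CategoryTheory AlgebraicGeometry IntermediateField Polynomial

namespace Vale.Agent.P297.H839

open Vale.Agent.P297

section Fields

/-- rationality does not depend on the embedding -/
theorem isRational_range {E N N' : Type} [Field E] [Algebra ℂ E] [Field N] [Algebra ℂ N]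
    [Field N'] [Algebra ℂ N'] (φ : E →ₐ[ℂ] N) (ψ : E →ₐ[ℂ] N') (h : IsRational φ.fieldRange) :
    IsRational ψ.fieldRange := by
  obtain ⟨d, x, hx, hF⟩ := h
  have h1 : ∀ i, ∃ e : E, φ e = x i := by
    intro i
    have h2 : x i ∈ φ.fieldRange := by
      rw [hF]
      exact IntermediateField.subset_adjoin _ _ ⟨i, rfl⟩
    exact h2
  choose e he using h1
  have hφe : φ ∘ e = x := funext he
  have hind : AlgebraicIndependent ℂ e := by
    apply AlgebraicIndependent.of_comp φ
    rw [hφe]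
    exact hx
  have htop : IntermediateField.adjoin ℂ (Set.range e) = ⊤ := by
    apply IntermediateField.map_injective φ
    rw [IntermediateField.adjoin_map, ← Set.range_comp, hφe, ← hF]
    exact (AlgHom.fieldRange_eq_map φ)
  refine ⟨d, ψ ∘ e, hind.map' ψ.toRingHom.injective, ?_⟩
  rw [Set.range_comp, ← IntermediateField.adjoin_map, htop]
  exact AlgHom.fieldRange_eq_map ψ

/-- rationality of a subfield of an intermediate field -/
theorem isRational_of_map {N : Type} [Field N] [Algebra ℂ N] {E : Type} [Field E] [Algebra ℂ E]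
    (m : E →ₐ[ℂ] N) (F : IntermediateField ℂ E) (h : IsRational (F.map m)) : IsRational F := by
  have h1 : (m.comp F.val).fieldRange = F.map m := by
    ext y
    constructor
    · rintro ⟨a, rfl⟩
      exact ⟨a.1, a.2, rfl⟩
    · rintro ⟨a, ha, rfl⟩
      exact ⟨⟨a, ha⟩, rfl⟩
  have h2 := isRational_range (m.comp F.val) F.val (by rw [h1]; exact h)
  rw [IntermediateField.fieldRange_val] at h2
  exact h2

/-- the quadratic extensions by the roots of conjugate elements are isomorphic -/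
theorem isRational_conj {N : Type} [Field N] [Algebra ℂ N] (B : IntermediateField ℂ N)
    (σ : B ≃ₐ[ℂ] B) (z w : N) (b : B) (hz : z ^ 2 = b) (hw : w ^ 2 = σ b)
    (h : IsRational (B ⊔ IntermediateField.adjoin ℂ {z})) :
    IsRational (B ⊔ IntermediateField.adjoin ℂ {w}) := by
  by_cases hzB : z ∈ B
  · have h1 : B ⊔ IntermediateField.adjoin ℂ {z} = B := by
      rw [sup_eq_left, IntermediateField.adjoin_le_iff]
      rintro _ rfl
      exact hzB
    have h2 : w ∈ B := by
      have h3 : (w - σ ⟨z, hzB⟩) * (w + σ ⟨z, hzB⟩) = 0 := by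
        have h4 : (σ b : N) = (σ ⟨z, hzB⟩ : N) ^ 2 := by
          have h5 : b = (⟨z, hzB⟩ : B) ^ 2 := Subtype.ext (by
            rw [← hz]
            rfl)
          rw [h5, map_pow]
          rfl
        have h6 : (w - σ ⟨z, hzB⟩) * (w + σ ⟨z, hzB⟩) = w ^ 2 - (σ ⟨z, hzB⟩ : N) ^ 2 := by ring
        rw [h6, hw, h4, sub_self]
      rcases mul_eq_zero.1 h3 with h4 | h4
      · rw [sub_eq_zero.1 h4]
        exact (σ ⟨z, hzB⟩).2
      · rw [eq_neg_of_add_eq_zero_left h4]
        exact B.neg_mem (σ ⟨z, hzB⟩).2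
    have h3 : B ⊔ IntermediateField.adjoin ℂ {w} = B := by
      rw [sup_eq_left, IntermediateField.adjoin_le_iff]
      rintro _ rfl
      exact h2
    rw [h3]
    rwa [h1] at h
  · -- the abstract quadratic extension
    have hirr : Irreducible (X ^ 2 - Polynomial.C b : B[X]) := by
      apply Polynomial.irreducible_of_degree_le_three_of_not_isRoot
      · rw [Finset.mem_Icc, natDegree_X_pow_sub_C]
        exact ⟨by norm_num, by norm_num⟩
      · intro r hr
        rw [IsRoot.def] at hr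
        simp only [eval_sub, eval_pow, eval_X, eval_C] at hr
        apply hzB
        have h1 : (z - r) * (z + r) = 0 := by
          have h2 : ((r ^ 2 : B) : N) = b := by rw [sub_eq_zero.1 hr]
          have h3 : (z - r) * (z + r) = z ^ 2 - (r : N) ^ 2 := by ring
          rw [h3, hz, ← h2]
          push_cast
          ring
        rcases mul_eq_zero.1 h1 with h4 | h4
        · rw [sub_eq_zero.1 h4]
          exact r.2
        · rw [eq_neg_of_add_eq_zero_left h4]
          exact B.neg_mem r.2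
    haveI : Fact (Irreducible (X ^ 2 - Polynomial.C b : B[X])) := ⟨hirr⟩
    let E := AdjoinRoot (X ^ 2 - Polynomial.C b : B[X])
    let φ : E →ₐ[ℂ] N := AdjoinRoot.liftAlgHom (X ^ 2 - Polynomial.C b : B[X]) B.val z (by
      rw [eval₂_sub, eval₂_pow, eval₂_X, eval₂_C, hz]
      exact sub_self _)
    let ψ : E →ₐ[ℂ] N := AdjoinRoot.liftAlgHom (X ^ 2 - Polynomial.C b : B[X])
      (B.val.comp σ.toAlgHom) w (by
        rw [eval₂_sub, eval₂_pow, eval₂_X, eval₂_C, hw]
        exact sub_self _)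
    have key : ∀ (χ : E →ₐ[ℂ] N) (ρ : B ≃ₐ[ℂ] B) (y : N)
        (_ : ∀ p : B[X], χ (AdjoinRoot.mk _ p) = eval₂ (B.val.comp ρ.toAlgHom).toRingHom y p),
        χ.fieldRange = B ⊔ IntermediateField.adjoin ℂ {y} := by
      intro χ ρ y hχ
      apply le_antisymm
      · rintro _ ⟨x, rfl⟩
        obtain ⟨p, rfl⟩ := AdjoinRoot.mk_surjective x
        change χ (AdjoinRoot.mk _ p) ∈ _
        rw [hχ, eval₂_eq_sum_range]
        refine sum_mem fun i _ => mul_mem ?_ (pow_mem ?_ i)
        · exact (le_sup_left : B ≤ _) (ρ (p.coeff i)).2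
        · exact (le_sup_right : IntermediateField.adjoin ℂ {y} ≤ _)
            (IntermediateField.mem_adjoin_simple_self ℂ y)
      · refine sup_le ?_ ?_
        · intro x hx
          refine ⟨AdjoinRoot.mk _ (Polynomial.C (ρ.symm ⟨x, hx⟩)), ?_⟩
          change χ (AdjoinRoot.mk _ _) = x
          rw [hχ, eval₂_C]
          change ((ρ (ρ.symm ⟨x, hx⟩) : B) : N) = x
          rw [AlgEquiv.apply_symm_apply]
        · rw [IntermediateField.adjoin_le_iff]
          rintro _ rfl
          refine ⟨AdjoinRoot.mk _ X, ?_⟩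
          change χ (AdjoinRoot.mk _ _) = _
          rw [hχ, eval₂_X]
    have hφ : φ.fieldRange = B ⊔ IntermediateField.adjoin ℂ {z} := by
      apply key φ AlgEquiv.refl z
      intro p
      exact AdjoinRoot.liftAlgHom_mk _ _ _ _ _
    have hψ : ψ.fieldRange = B ⊔ IntermediateField.adjoin ℂ {w} := by
      apply key ψ σ w
      intro p
      exact AdjoinRoot.liftAlgHom_mk _ _ _ _ _
    rw [← hψ]
    apply isRational_range φ ψ
    rw [hφ]
    exact h

/-- two homomorphisms that agree on generators -/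
theorem agree_on_adjoin {E N : Type} [Field E] [Algebra ℂ E] [Field N] [Algebra ℂ N]
    (φ ψ : E →ₐ[ℂ] N) (T : Set E) (h : ∀ a ∈ T, φ a = ψ a) :
    ∀ a ∈ IntermediateField.adjoin ℂ T, φ a = ψ a := by
  intro a ha
  induction ha using IntermediateField.adjoin_induction with
  | mem x hx => exact h x hx
  | algebraMap x => simp
  | add x y _ _ hx hy => simp only [map_add, hx, hy]
  | inv x _ hx => simp only [map_inv₀, hx]
  | mul x y _ _ hx hy => simp only [map_mul, hx, hy]

/-- two homomorphisms that agree on `F` and on `y` agree on `F(y)` -/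
theorem agree_on_sup {E N : Type} [Field E] [Algebra ℂ E] [Field N] [Algebra ℂ N]
    (φ ψ : E →ₐ[ℂ] N) (F : IntermediateField ℂ E) (y : E) (hF : ∀ a ∈ F, φ a = ψ a)
    (hy : φ y = ψ y) : ∀ a ∈ F ⊔ IntermediateField.adjoin ℂ {y}, φ a = ψ a := by
  have h1 : F ⊔ IntermediateField.adjoin ℂ {y} ≤ IntermediateField.adjoin ℂ ((F : Set E) ∪ {y}) := by
    refine sup_le ?_ ?_
    · intro a ha
      exact IntermediateField.subset_adjoin _ _ (Or.inl ha)
    · exact IntermediateField.adjoin.mono _ _ _ (Set.subset_union_right)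
  intro a ha
  refine agree_on_adjoin φ ψ _ ?_ a (h1 ha)
  rintro x (hx | hx)
  · exact hF x hx
  · rw [Set.mem_singleton_iff.1 hx]
    exact hy

theorem adjoin_union_singleton {N : Type} [Field N] [Algebra ℂ N] (F : IntermediateField ℂ N)
    (y : N) (htop : F ⊔ IntermediateField.adjoin ℂ {y} = ⊤) :
    IntermediateField.adjoin ℂ ((F : Set N) ∪ {y}) = ⊤ := by
  rw [eq_top_iff, ← htop]
  refine sup_le ?_ ?_
  · intro a ha
    exact IntermediateField.subset_adjoin _ _ (Or.inl ha)
  · exact IntermediateField.adjoin.mono _ _ _ (Set.subset_union_right)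

end Fields

section

variable {S : Scheme.{0}} {f : S ⟶ Spec (.of ℂ)} [IsProper f] {C : Type} [CommRing C] [Algebra ℂ C]
  [Algebra.FiniteType ℂ C] {j : Spec (.of C) ⟶ S}
  {hj : j ≫ f = Spec.map (CommRingCat.ofHom (algebraMap ℂ C))}

/-- A quadratic extension of a purely transcendental field. -/
theorem part_rational {N : Type} [Field N] [Algebra ℂ N] (F : IntermediateField ℂ N)
    (hF : IsRational F) (y : N) (hy : y ^ 2 ∈ F)
    (htop : F ⊔ IntermediateField.adjoin ℂ {y} = ⊤) :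
    (∀ ι : C →ₐ[ℂ] N, Finsupp.single ι (1 : ℤ) ∈ Good f j hj (Rat f) N) ∨
    ∃ τ : N ≃ₐ[ℂ] N, (∀ a ∈ F, τ a = a) ∧ τ y = -y ∧
      ∀ ι : C →ₐ[ℂ] N, Finsupp.single ι (1 : ℤ) + Finsupp.single (τ.toAlgHom.comp ι) 1 ∈
        Good f j hj (Rat f) N := by
  obtain ⟨d, x, hx, rfl⟩ := hF
  have htop' := adjoin_union_singleton _ y htop
  have hspan := exists_quad (IntermediateField.adjoin ℂ (Set.range x)) y hy _
    (by
      rintro a (ha | ha)
      · exact Or.inl ha
      · exact Or.inr ha) htop'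
  by_cases hwF : y ∈ IntermediateField.adjoin ℂ (Set.range x)
  · left
    intro ι
    apply good_trivial x hx
    rw [eq_top_iff, ← htop]
    refine sup_le le_rfl ?_
    rw [IntermediateField.adjoin_le_iff]
    rintro _ rfl
    exact hwF
  · right
    obtain ⟨τ, hτF, hτw, hττ, hfix⟩ := exists_quad_aut _ y hy hwF hspan
    refine ⟨τ, hτF, hτw, fun ι => ?_⟩
    refine good_pair x hx τ hττ ?_ ?_ hfix ι
    · intro h1
      apply hwF
      apply hfix
      rw [h1]
      rfl
    · intro i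
      exact hτF _ (IntermediateField.subset_adjoin _ _ ⟨i, rfl⟩)

end

section Twin

variable {B N K : Type} [Field B] [Algebra ℂ B] [Field N] [Algebra ℂ N] [Field K] [Algebra ℂ K]

/-- the fixed field of an automorphism -/
theorem mem_fixed {σ : B ≃ₐ[ℂ] B} {c : B} (h : σ c = c) :
    c ∈ IntermediateField.fixedField (Subgroup.zpowers σ) := by
  rintro ⟨g, hg⟩
  obtain ⟨n, rfl⟩ := Subgroup.mem_zpowers_iff.1 hg
  have h1 : ∀ k : ℕ, (σ ^ k) c = c := by
    intro k
    induction k with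
    | zero => rfl
    | succ k ih => rw [pow_succ, AlgEquiv.mul_apply, h, ih]
  change (σ ^ n) c = c
  rcases n with k | k
  · rw [Int.ofNat_eq_natCast, zpow_natCast]
    exact h1 k
  · rw [zpow_negSucc]
    conv_lhs => rw [← h1 (k + 1)]
    change ((σ ^ (k + 1))⁻¹ * σ ^ (k + 1)) c = c
    rw [inv_mul_cancel]
    rfl

theorem fixed_of_mem {σ : B ≃ₐ[ℂ] B} {c : B}
    (h : c ∈ IntermediateField.fixedField (Subgroup.zpowers σ)) : σ c = c :=
  h ⟨σ, Subgroup.mem_zpowers σ⟩

/-- the data of a pair of twins -/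
structure TwinData (β : B →ₐ[ℂ] N) (σ : B ≃ₐ[ℂ] B) (b : B) (z w : N) (m : K →ₐ[ℂ] N) : Prop where
  invol : ∀ c, σ (σ c) = c
  hz : z ^ 2 = β b
  hw : w ^ 2 = β (σ b)
  top : β.fieldRange ⊔ IntermediateField.adjoin ℂ {z} ⊔ IntermediateField.adjoin ℂ {w} = ⊤
  hm : m.fieldRange = (IntermediateField.fixedField (Subgroup.zpowers σ)).map β ⊔
    IntermediateField.adjoin ℂ {z + w}
  rz : IsRational (β.fieldRange ⊔ IntermediateField.adjoin ℂ {z})
  rw' : IsRational (β.fieldRange ⊔ IntermediateField.adjoin ℂ {w})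
  rzw : IsRational ((IntermediateField.fixedField (Subgroup.zpowers σ)).map β ⊔
    IntermediateField.adjoin ℂ {z * w})

variable {β : B →ₐ[ℂ] N} {σ : B ≃ₐ[ℂ] B} {b : B} {z w : N} {m : K →ₐ[ℂ] N}

theorem TwinData.sum_mem (h : TwinData β σ b z w m) :
    β (b + σ b) ∈ (IntermediateField.fixedField (Subgroup.zpowers σ)).map β :=
  ⟨b + σ b, mem_fixed (by rw [map_add, h.invol, add_comm]), rfl⟩

theorem TwinData.zw_mem (h : TwinData β σ b z w m) : z * w ∈ m.fieldRange := by
  rw [h.hm]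
  have h1 : z + w ∈ (IntermediateField.fixedField (Subgroup.zpowers σ)).map β ⊔
      IntermediateField.adjoin ℂ {z + w} :=
    (le_sup_right : IntermediateField.adjoin ℂ {z + w} ≤ _)
      (IntermediateField.mem_adjoin_simple_self ℂ _)
  have h2 : β (b + σ b) ∈ (IntermediateField.fixedField (Subgroup.zpowers σ)).map β ⊔
      IntermediateField.adjoin ℂ {z + w} :=
    (le_sup_left : (IntermediateField.fixedField (Subgroup.zpowers σ)).map β ≤ _) h.sum_mem
  have h3 : z * w = ((z + w) ^ 2 - β (b + σ b)) / 2 := by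
    haveI : CharZero N := charZero_of_injective_algebraMap (algebraMap ℂ N).injective
    rw [map_add, ← h.hz, ← h.hw, eq_div_iff two_ne_zero]
    ring
  rw [h3]
  exact div_mem (sub_mem (pow_mem h1 2) h2) (ofNat_mem _ 2)

/-- the intermediate field of `K` over which `K` is quadratic -/
theorem TwinData.double (h : TwinData β σ b z w m) :
    ∃ (F : IntermediateField ℂ K) (θ : K), IsRational F ∧ m θ = z + w ∧ θ ^ 2 ∈ F ∧
      F ⊔ IntermediateField.adjoin ℂ {θ} = ⊤ ∧
      F.map m = (IntermediateField.fixedField (Subgroup.zpowers σ)).map β ⊔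
        IntermediateField.adjoin ℂ {z * w} := by
  obtain ⟨ζ, hζ⟩ := h.zw_mem
  have h1 : z + w ∈ m.fieldRange := by
    rw [h.hm]
    exact (le_sup_right : IntermediateField.adjoin ℂ {z + w} ≤ _)
      (IntermediateField.mem_adjoin_simple_self ℂ _)
  obtain ⟨θ, hθ⟩ := h1
  have hle : (IntermediateField.fixedField (Subgroup.zpowers σ)).map β ⊔
      IntermediateField.adjoin ℂ {z * w} ≤ m.fieldRange := by
    refine sup_le ?_ ?_
    · rw [h.hm]
      exact le_sup_left
    · rw [IntermediateField.adjoin_le_iff]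
      rintro _ rfl
      exact ⟨ζ, hζ⟩
  have hmap : (((IntermediateField.fixedField (Subgroup.zpowers σ)).map β ⊔
      IntermediateField.adjoin ℂ {z * w}).comap m).map m =
      (IntermediateField.fixedField (Subgroup.zpowers σ)).map β ⊔
        IntermediateField.adjoin ℂ {z * w} := by
    ext a
    constructor
    · rintro ⟨c, hc, rfl⟩
      exact hc
    · intro ha
      obtain ⟨c, rfl⟩ := hle ha
      exact ⟨c, ha, rfl⟩
  refine ⟨_, θ, isRational_of_map m _ (by rw [hmap]; exact h.rzw), hθ, ?_, ?_, hmap⟩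
  · change m (θ ^ 2) ∈ (IntermediateField.fixedField (Subgroup.zpowers σ)).map β ⊔
        IntermediateField.adjoin ℂ {z * w}
    have h3 : m (θ ^ 2) = β (b + σ b) + 2 * (z * w) := by
      rw [map_pow]
      change (m θ) ^ 2 = _
      have hθ' : m θ = z + w := hθ
      rw [hθ', map_add, ← h.hz, ← h.hw]
      ring
    rw [h3]
    refine add_mem ((le_sup_left : (IntermediateField.fixedField
      (Subgroup.zpowers σ)).map β ≤ _) h.sum_mem) (mul_mem (ofNat_mem _ 2) ?_)
    exact (le_sup_right : IntermediateField.adjoin ℂ {z * w} ≤ _)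
      (IntermediateField.mem_adjoin_simple_self ℂ _)
  · apply IntermediateField.map_injective m
    rw [IntermediateField.map_sup, hmap, IntermediateField.adjoin_map, Set.image_singleton,
      ← AlgHom.fieldRange_eq_map m, h.hm]
    have hθ' : m θ = z + w := hθ
    rw [hθ']
    apply le_antisymm
    · refine sup_le (sup_le le_sup_left ?_) le_sup_right
      rw [IntermediateField.adjoin_le_iff]
      rintro _ rfl
      rw [← h.hm]
      exact ⟨ζ, hζ⟩
    · exact sup_le (le_sup_left.trans le_sup_left) le_sup_right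

theorem TwinData.isDouble (h : TwinData β σ b z w m) : IsDouble K := by
  obtain ⟨F, θ, hF, -, hθ, htop, -⟩ := h.double
  exact ⟨F, θ, hF, hθ, adjoin_union_singleton F θ htop⟩

/-- `N` is algebraic over `K` -/
theorem TwinData.algebraic (h : TwinData β σ b z w m) (y : N) :
    ∃ p : K[X], p ≠ 0 ∧ p.eval₂ m.toRingHom y = 0 := by
  have hsub : ∀ c : B, σ c = c → β c ∈ m.fieldRange := by
    intro c hc
    rw [h.hm]
    exact (le_sup_left : (IntermediateField.fixedField (Subgroup.zpowers σ)).map β ≤ _)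
      ⟨c, mem_fixed hc, rfl⟩
  have hβ : ∀ c : B, IsAlgebraic m.fieldRange (β c) := by
    intro c
    have h1 : β (c + σ c) ∈ m.fieldRange := hsub _ (by rw [map_add, h.invol, add_comm])
    have h2 : β (c * σ c) ∈ m.fieldRange := hsub _ (by rw [map_mul, h.invol, mul_comm])
    refine ⟨X ^ 2 - Polynomial.C ⟨β (c + σ c), h1⟩ * X + Polynomial.C ⟨β (c * σ c), h2⟩, ?_, ?_⟩
    · apply Monic.ne_zero
      monicity!
    · simp only [map_add, map_sub, map_pow, aeval_X, map_mul, aeval_C]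
      change β c ^ 2 - (β c + β (σ c)) * β c + β c * β (σ c) = 0
      ring
  have h1 : IsAlgebraic m.fieldRange y := by
    refine isAlgebraic_of_gens m.fieldRange (((β.fieldRange : Set N) ∪ {z}) ∪ {w}) ?_ ?_ y
    · rw [eq_top_iff, ← h.top]
      refine sup_le (sup_le ?_ ?_) ?_
      · intro a ha
        exact IntermediateField.subset_adjoin _ _ (Or.inl (Or.inl ha))
      · exact IntermediateField.adjoin.mono _ _ _ (Set.subset_union_right.trans
          Set.subset_union_left)
      · exact IntermediateField.adjoin.mono _ _ _ (Set.subset_union_right)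
    · rintro a ((⟨c, rfl⟩ | ha) | ha)
      · exact hβ c
      · rw [Set.mem_singleton_iff.1 ha]
        apply isAlgebraic_sq
        rw [h.hz]
        exact hβ b
      · rw [Set.mem_singleton_iff.1 ha]
        apply isAlgebraic_sq
        rw [h.hw]
        exact hβ (σ b)
  obtain ⟨p, hp0, hp⟩ := h1
  let e : K ≃ₐ[ℂ] m.fieldRange := AlgEquiv.ofInjectiveField m
  refine ⟨p.map e.symm.toRingEquiv.toRingHom, ?_, ?_⟩
  · rw [Ne, Polynomial.map_eq_zero]
    exact hp0
  · rw [Polynomial.eval₂_map]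
    have h2 : m.toRingHom.comp e.symm.toRingEquiv.toRingHom = algebraMap m.fieldRange N := by
      apply RingHom.ext
      intro a
      change m (e.symm a) = a
      have h3 : m (e.symm a) = (e (e.symm a) : N) := rfl
      rw [h3, AlgEquiv.apply_symm_apply]
    rw [h2]
    exact hp

/-- the product of the two involutions of `N` extends the involution of `K` -/
theorem twin_comm (τ₁ τ₂ : N ≃ₐ[ℂ] N) (τ₃ : K ≃ₐ[ℂ] K) (F : IntermediateField ℂ K) (θ : K)
    (hF₁ : ∀ a ∈ β.fieldRange ⊔ IntermediateField.adjoin ℂ {z}, τ₁ a = a) (hw₁ : τ₁ w = -w)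
    (hF₂ : ∀ a ∈ β.fieldRange ⊔ IntermediateField.adjoin ℂ {w}, τ₂ a = a) (hz₂ : τ₂ z = -z)
    (hF₃ : ∀ a ∈ F, τ₃ a = a) (hθ₃ : τ₃ θ = -θ) (hθ : m θ = z + w)
    (htop : F ⊔ IntermediateField.adjoin ℂ {θ} = ⊤)
    (hmap : F.map m = (IntermediateField.fixedField (Subgroup.zpowers σ)).map β ⊔
      IntermediateField.adjoin ℂ {z * w}) (a : K) : m (τ₃ a) = τ₂ (τ₁ (m a)) := by
  have hzs : ∀ c : B, ∀ y : N, β c ∈ β.fieldRange ⊔ IntermediateField.adjoin ℂ {y} := fun c y =>
    (le_sup_left : β.fieldRange ≤ _) ⟨c, rfl⟩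
  have hys : ∀ y : N, y ∈ β.fieldRange ⊔ IntermediateField.adjoin ℂ {y} := fun y =>
    (le_sup_right : IntermediateField.adjoin ℂ {y} ≤ _)
      (IntermediateField.mem_adjoin_simple_self ℂ _)
  have hz₁ : τ₁ z = z := hF₁ z (hys z)
  have hw₂ : τ₂ w = w := hF₂ w (hys w)
  have hfix : ∀ a ∈ (IntermediateField.fixedField (Subgroup.zpowers σ)).map β ⊔
      IntermediateField.adjoin ℂ {z * w}, ((τ₁.trans τ₂ : N ≃ₐ[ℂ] N) : N →ₐ[ℂ] N) a =
        (AlgHom.id ℂ N) a := by
    apply agree_on_sup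
    · rintro _ ⟨c, -, rfl⟩
      have h1 : τ₂ (τ₁ (β c)) = β c := by
        rw [hF₁ _ (hzs c z), hF₂ _ (hzs c w)]
      exact h1
    · have h1 : τ₂ (τ₁ (z * w)) = z * w := by
        rw [map_mul, hw₁, hz₁, map_mul, map_neg, hz₂, hw₂, neg_mul_neg]
      exact h1
  have h1 : ∀ a ∈ F ⊔ IntermediateField.adjoin ℂ {θ},
      (m.comp (τ₃ : K →ₐ[ℂ] K)) a = (((τ₁.trans τ₂ : N ≃ₐ[ℂ] N) : N →ₐ[ℂ] N).comp m) a := by
    apply agree_on_sup
    · intro a ha
      have h2 : m a ∈ (IntermediateField.fixedField (Subgroup.zpowers σ)).map β ⊔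
          IntermediateField.adjoin ℂ {z * w} := by
        rw [← hmap]
        exact ⟨a, ha, rfl⟩
      have h3 := hfix (m a) h2
      rw [AlgHom.comp_apply, AlgHom.comp_apply, h3]
      have h4 : (τ₃ : K →ₐ[ℂ] K) a = a := hF₃ a ha
      rw [h4]
      rfl
    · rw [AlgHom.comp_apply, AlgHom.comp_apply]
      have h4 : (τ₃ : K →ₐ[ℂ] K) θ = -θ := hθ₃
      have h5 : τ₂ (τ₁ (z + w)) = -(z + w) := by
        rw [map_add, hw₁, hz₁, map_add, map_neg, hz₂, hw₂, neg_add]
      rw [h4, map_neg, hθ]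
      exact h5.symm
  exact h1 a (by rw [htop]; trivial)

end Twin

section

variable {S : Scheme.{0}} {f : S ⟶ Spec (.of ℂ)} [IsProper f] {C : Type} [CommRing C] [Algebra ℂ C]
  [Algebra.FiniteType ℂ C] {j : Spec (.of C) ⟶ S}
  {hj : j ≫ f = Spec.map (CommRingCat.ofHom (algebraMap ℂ C))}

theorem TwinData.good {B N K : Type} [Field B] [Algebra ℂ B] [Field N] [Algebra ℂ N] [Field K]
    [Algebra ℂ K] {β : B →ₐ[ℂ] N} {σ : B ≃ₐ[ℂ] B} {b : B} {z w : N} {m : K →ₐ[ℂ] N}
    (h : TwinData β σ b z w m) (ι : C →ₐ[ℂ] K) :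
    Finsupp.single (m.comp ι) (2 : ℤ) ∈ Good f j hj (Rat f) N := by
  have two : ∀ φ : C →ₐ[ℂ] N, Finsupp.single φ (2 : ℤ) =
      Finsupp.single φ (1 : ℤ) + Finsupp.single φ (1 : ℤ) := by
    intro φ
    rw [← Finsupp.single_add]
    rfl
  have hzs : ∀ c : B, ∀ y : N, β c ∈ β.fieldRange ⊔ IntermediateField.adjoin ℂ {y} := fun c y =>
    (le_sup_left : β.fieldRange ≤ _) ⟨c, rfl⟩
  have hys : ∀ y : N, y ∈ β.fieldRange ⊔ IntermediateField.adjoin ℂ {y} := fun y =>
    (le_sup_right : IntermediateField.adjoin ℂ {y} ≤ _)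
      (IntermediateField.mem_adjoin_simple_self ℂ _)
  rcases part_rational (f := f) (j := j) (hj := hj) _ h.rz w (by rw [h.hw]; exact hzs _ _)
    h.top with h1 | ⟨τ₁, hF₁, hw₁, g₁⟩
  · rw [two]
    exact add_mem (h1 _) (h1 _)
  rcases part_rational (f := f) (j := j) (hj := hj) _ h.rw' z (by rw [h.hz]; exact hzs _ _)
    (by rw [sup_right_comm]; exact h.top) with h2 | ⟨τ₂, hF₂, hz₂, g₂⟩
  · rw [two]
    exact add_mem (h2 _) (h2 _)
  obtain ⟨F, θ, hF, hθ, hθ2, htop, hmap⟩ := h.double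
  rcases part_rational (f := f) (j := j) (hj := hj) F hF θ hθ2 htop with h3 | ⟨τ₃, hF₃, hθ₃, g₃⟩
  · have h5 := Good.map m (h3 ι)
    rw [Finsupp.mapDomain_single] at h5
    rw [two]
    exact add_mem h5 h5
  have hcomm : m.comp τ₃.toAlgHom = (τ₂.toAlgHom.comp τ₁.toAlgHom).comp m :=
    AlgHom.ext (twin_comm τ₁ τ₂ τ₃ F θ hF₁ hw₁ hF₂ hz₂ hF₃ hθ₃ hθ htop hmap)
  have k1 := g₁ (m.comp ι)
  have k2 := g₂ (τ₁.toAlgHom.comp (m.comp ι))
  have k3 := Good.map m (g₃ ι)
  rw [Finsupp.mapDomain_add, Finsupp.mapDomain_single, Finsupp.mapDomain_single] at k3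
  have h8 : m.comp (τ₃.toAlgHom.comp ι) = τ₂.toAlgHom.comp (τ₁.toAlgHom.comp (m.comp ι)) := by
    have h9 := congrArg (fun φ : K →ₐ[ℂ] N => φ.comp ι) hcomm
    exact h9
  rw [h8] at k3
  have h10 := add_mem (sub_mem k1 k2) k3
  rw [two]
  have h11 : Finsupp.single (m.comp ι) (1 : ℤ) + Finsupp.single (m.comp ι) (1 : ℤ) =
      Finsupp.single (m.comp ι) (1 : ℤ) + Finsupp.single (τ₁.toAlgHom.comp (m.comp ι)) (1 : ℤ) -
      (Finsupp.single (τ₁.toAlgHom.comp (m.comp ι)) (1 : ℤ) +
        Finsupp.single (τ₂.toAlgHom.comp (τ₁.toAlgHom.comp (m.comp ι))) (1 : ℤ)) +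
      (Finsupp.single (m.comp ι) (1 : ℤ) +
        Finsupp.single (τ₂.toAlgHom.comp (τ₁.toAlgHom.comp (m.comp ι))) (1 : ℤ)) := by
    abel
  rw [h11]
  exact h10

end

/-- twins, when `N` is generated by `B`, `z`, `w` -/
theorem TwinData.one {B N K : Type} [Field B] [Algebra ℂ B] [Field N] [Algebra ℂ N] [Field K]
    [Algebra ℂ K] {β : B →ₐ[ℂ] N} {σ : B ≃ₐ[ℂ] B} {b : B} {z w : N} {m : K →ₐ[ℂ] N}
    (h : TwinData β σ b z w m)
    {S : Scheme.{0}} [IsIntegral S] (f : S ⟶ Spec (.of ℂ)) [IsProper f]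
    (hS : IsFunctionFieldOf f K) (x y : ClosedPt S) : RatEquiv f x y := by
  refine one_of_pow_two f hS h.isDouble 1 ?_ x y
  intro x y
  rw [pow_one]
  obtain ⟨U, hU, hne, hi⟩ := exists_chart f hS
  letI := chartAlg f hU
  haveI := chart_finiteType f hU
  obtain ⟨i, hi, hfrac⟩ := hi
  have hm : Function.Injective m := m.toRingHom.injective
  refine global_of_good f hU 2 (Rat f) le_rfl (m.comp i) (hm.comp hi) ?_ (h.good i) x y
  intro y
  exact exists_poly_of_algebraic i.toRingHom hi hfrac m.toRingHom y (h.algebraic y)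

/-- the conjugate quadratic extension is rational too -/
theorem rational_conj {B N : Type} [Field B] [Algebra ℂ B] [Field N] [Algebra ℂ N]
    (β : B →ₐ[ℂ] N) (σ : B ≃ₐ[ℂ] B) (b : B) (z w : N) (hz : z ^ 2 = β b)
    (hw : w ^ 2 = β (σ b)) (h1 : IsRational (β.fieldRange ⊔ IntermediateField.adjoin ℂ {z})) :
    IsRational (β.fieldRange ⊔ IntermediateField.adjoin ℂ {w}) := by
  obtain ⟨σ', hσ'⟩ : ∃ σ' : β.fieldRange ≃ₐ[ℂ] β.fieldRange, ∀ c : B,
      (σ' ⟨β c, c, rfl⟩ : N) = β (σ c) := by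
    let e : B ≃ₐ[ℂ] β.fieldRange := AlgEquiv.ofInjectiveField β
    refine ⟨(e.symm.trans σ).trans e, fun c => ?_⟩
    have h5 : e.symm ⟨β c, c, rfl⟩ = c := by
      rw [AlgEquiv.symm_apply_eq]
      rfl
    change ((e (σ (e.symm ⟨β c, c, rfl⟩)) : β.fieldRange) : N) = _
    rw [h5]
    rfl
  exact isRational_conj β.fieldRange σ' z w ⟨β b, b, rfl⟩ hz (by rw [hσ']; exact hw) h1

theorem map_adjoin_single {M N : Type} [Field M] [Algebra ℂ M] [Field N] [Algebra ℂ N]
    (v : M →ₐ[ℂ] N) (y : M) (z : N) (h : v y = z) :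
    (IntermediateField.adjoin ℂ {y}).map v = IntermediateField.adjoin ℂ {z} := by
  rw [IntermediateField.adjoin_map, Set.image_singleton, h]

/-- the data of a pair of twins inside the field that they generate -/
theorem twinData_of {B M N K : Type} [Field B] [Algebra ℂ B] [Field M] [Algebra ℂ M] [Field N]
    [Algebra ℂ N] [Field K] [Algebra ℂ K] (β : B →ₐ[ℂ] N) (β₀ : B →ₐ[ℂ] M) (v : M →ₐ[ℂ] N)
    (σ : B ≃ₐ[ℂ] B) (hσ : ∀ c, σ (σ c) = c) (b : B) (z w : N) (z₀ w₀ : M) (hz : z ^ 2 = β b)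
    (hw : w ^ 2 = β (σ b)) (h1 : IsRational (β.fieldRange ⊔ IntermediateField.adjoin ℂ {z}))
    (h2 : IsRational ((IntermediateField.fixedField (Subgroup.zpowers σ)).map β ⊔
      IntermediateField.adjoin ℂ {z * w})) (m : K →ₐ[ℂ] M)
    (hβ : v.comp β₀ = β) (hz₀ : v z₀ = z) (hw₀ : v w₀ = w)
    (hv : v.fieldRange = β.fieldRange ⊔ IntermediateField.adjoin ℂ {z} ⊔
      IntermediateField.adjoin ℂ {w})
    (hm : (v.comp m).fieldRange = (IntermediateField.fixedField (Subgroup.zpowers σ)).map β ⊔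
      IntermediateField.adjoin ℂ {z + w}) : TwinData β₀ σ b z₀ w₀ m := by
  have hinj := IntermediateField.map_injective v
  have hrange : β₀.fieldRange.map v = β.fieldRange := by
    rw [AlgHom.fieldRange_eq_map β₀, IntermediateField.map_map, hβ, ← AlgHom.fieldRange_eq_map]
  have hfixm : ((IntermediateField.fixedField (Subgroup.zpowers σ)).map β₀).map v =
      (IntermediateField.fixedField (Subgroup.zpowers σ)).map β := by
    rw [IntermediateField.map_map, hβ]
  have hvi : Function.Injective v := v.toRingHom.injective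
  have hβc : ∀ c, v (β₀ c) = β c := fun c => by rw [← hβ]; rfl
  refine ⟨hσ, ?_, ?_, ?_, ?_, ?_, ?_, ?_⟩
  · apply hvi
    rw [map_pow, hz₀, hβc, hz]
  · apply hvi
    rw [map_pow, hw₀, hβc, hw]
  · apply hinj
    rw [IntermediateField.map_sup, IntermediateField.map_sup, hrange,
      map_adjoin_single v z₀ z hz₀, map_adjoin_single v w₀ w hw₀, ← hv,
      ← AlgHom.fieldRange_eq_map]
  · apply hinj
    rw [IntermediateField.map_sup, hfixm, map_adjoin_single v (z₀ + w₀) (z + w)
      (by rw [map_add, hz₀, hw₀]), ← hm, AlgHom.fieldRange_eq_map, AlgHom.fieldRange_eq_map,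
      IntermediateField.map_map]
  · apply isRational_of_map v
    rw [IntermediateField.map_sup, hrange, map_adjoin_single v z₀ z hz₀]
    exact h1
  · apply isRational_of_map v
    rw [IntermediateField.map_sup, hrange, map_adjoin_single v w₀ w hw₀]
    exact rational_conj β σ b z w hz hw h1
  · apply isRational_of_map v
    rw [IntermediateField.map_sup, hfixm, map_adjoin_single v (z₀ * w₀) (z * w)
      (by rw [map_mul, hz₀, hw₀])]
    exact h2

/-- twins, for an abstract function field -/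
theorem twins_abstract {B M N K : Type} [Field B] [Algebra ℂ B] [Field M] [Algebra ℂ M] [Field N]
    [Algebra ℂ N] [Field K] [Algebra ℂ K] (β : B →ₐ[ℂ] N) (β₀ : B →ₐ[ℂ] M) (v : M →ₐ[ℂ] N)
    (σ : B ≃ₐ[ℂ] B) (hσ : ∀ c, σ (σ c) = c) (b : B) (z w : N) (z₀ w₀ : M) (hz : z ^ 2 = β b)
    (hw : w ^ 2 = β (σ b)) (h1 : IsRational (β.fieldRange ⊔ IntermediateField.adjoin ℂ {z}))
    (h2 : IsRational ((IntermediateField.fixedField (Subgroup.zpowers σ)).map β ⊔
      IntermediateField.adjoin ℂ {z * w})) (m : K →ₐ[ℂ] M)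
    (hβ : v.comp β₀ = β) (hz₀ : v z₀ = z) (hw₀ : v w₀ = w)
    (hv : v.fieldRange = β.fieldRange ⊔ IntermediateField.adjoin ℂ {z} ⊔
      IntermediateField.adjoin ℂ {w})
    (hm : (v.comp m).fieldRange = (IntermediateField.fixedField (Subgroup.zpowers σ)).map β ⊔
      IntermediateField.adjoin ℂ {z + w})
    {S : Scheme.{0}} [IsIntegral S] (f : S ⟶ Spec (.of ℂ)) [IsProper f]
    (hS : IsFunctionFieldOf f K) (x y : ClosedPt S) : RatEquiv f x y :=
  (twinData_of β β₀ v σ hσ b z w z₀ w₀ hz hw h1 h2 m hβ hz₀ hw₀ hv hm).one f hS x y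

/-- the function field, with its embedding in the field generated by `B`, `z`, `w` -/
theorem twins_maps {B N : Type} [Field B] [Algebra ℂ B] [Field N] [Algebra ℂ N] (β : B →ₐ[ℂ] N)
    (σ : B ≃ₐ[ℂ] B) (z w : N) (M K : IntermediateField ℂ N)
    (hM : M = β.fieldRange ⊔ IntermediateField.adjoin ℂ {z} ⊔ IntermediateField.adjoin ℂ {w})
    (hK : K = (IntermediateField.fixedField (Subgroup.zpowers σ)).map β ⊔
      IntermediateField.adjoin ℂ {z + w}) :
    ∃ (β₀ : B →ₐ[ℂ] M) (m : K →ₐ[ℂ] M) (z₀ w₀ : M), M.val.comp β₀ = β ∧ M.val.comp m = K.val ∧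
      M.val z₀ = z ∧ M.val w₀ = w := by
  have hβ : ∀ c, β c ∈ M := fun c => by
    rw [hM]
    exact (le_sup_left.trans le_sup_left : β.fieldRange ≤ _) ⟨c, rfl⟩
  have hz' : z ∈ M := by
    rw [hM]
    exact (le_sup_right.trans le_sup_left : IntermediateField.adjoin ℂ {z} ≤ _)
      (IntermediateField.mem_adjoin_simple_self ℂ _)
  have hw' : w ∈ M := by
    rw [hM]
    exact (le_sup_right : IntermediateField.adjoin ℂ {w} ≤ _)
      (IntermediateField.mem_adjoin_simple_self ℂ _)
  have hKle : K ≤ M := by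
    rw [hK]
    refine sup_le ?_ ?_
    · rintro _ ⟨c, -, rfl⟩
      exact hβ c
    · rw [IntermediateField.adjoin_le_iff]
      rintro _ rfl
      exact add_mem hz' hw'
  refine ⟨β.codRestrict M.toSubalgebra hβ, IntermediateField.inclusion hKle, ⟨z, hz'⟩, ⟨w, hw'⟩,
    ?_, ?_, rfl, rfl⟩
  · exact AlgHom.ext fun c => rfl
  · exact AlgHom.ext fun c => rfl

/-- **Galois twins.** -/
theorem twins {B N : Type} [Field B] [Algebra ℂ B] [Field N] [Algebra ℂ N] (β : B →ₐ[ℂ] N)
    (σ : B ≃ₐ[ℂ] B) (hσ : ∀ c, σ (σ c) = c) (b : B) (z w : N) (hz : z ^ 2 = β b)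
    (hw : w ^ 2 = β (σ b)) (h1 : IsRational (β.fieldRange ⊔ IntermediateField.adjoin ℂ {z}))
    (h2 : IsRational ((IntermediateField.fixedField (Subgroup.zpowers σ)).map β ⊔
      IntermediateField.adjoin ℂ {z * w}))
    {S : Scheme.{0}} [IsIntegral S] (f : S ⟶ Spec (.of ℂ)) [IsProper f]
    (hS : IsFunctionFieldOf f ((IntermediateField.fixedField (Subgroup.zpowers σ)).map β ⊔
      IntermediateField.adjoin ℂ {z + w} : IntermediateField ℂ N)) (x y : ClosedPt S) :
    RatEquiv f x y := by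
  generalize hK : ((IntermediateField.fixedField (Subgroup.zpowers σ)).map β ⊔
      IntermediateField.adjoin ℂ {z + w} : IntermediateField ℂ N) = K at hS
  generalize hM : β.fieldRange ⊔ IntermediateField.adjoin ℂ {z} ⊔
    IntermediateField.adjoin ℂ {w} = M
  obtain ⟨β₀, m, z₀, w₀, hβ₀, hm₀, hz₀, hw₀⟩ := twins_maps β σ z w M K hM.symm hK.symm
  refine twins_abstract β β₀ M.val σ hσ b z w z₀ w₀ hz hw h1 h2 m hβ₀ hz₀ hw₀ ?_ ?_ f hS x y
  · rw [IntermediateField.fieldRange_val, hM]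
  · rw [hm₀, IntermediateField.fieldRange_val, hK]

end Vale.Agent.P297.H839
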